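import Crest.Agent.N255.Ku.Lin
import Crest.Agent.N255.Cs.Mem
import Crest.Agent.N255.Cs.Sing
import Crest.Agent.N255.Tg.OnO

-- ▼ part N255/Ku/Basic
section

/-!
# Row 255 (helper21): off-shell connections on a truncated Δ-set, Kuranishi families, gauge fixing
-/

set_option autoImplicit false
open Set

noncomputable section

namespace Crest.Agent.N255.Ku

open Cs Cs.Tw

/-- vertices, edges, triangles, tetrahedra -/
structure Ds (V E T Q : Type*) where
  s : E → V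
  t : E → V
  a : T → E
  b : T → E
  c : T → E
  f0 : Q → T
  f1 : Q → T
  f2 : Q → T
  f3 : Q → T
  sa : ∀ x, s (a x) = s (c x)
  ta : ∀ x, t (a x) = s (b x)
  tb : ∀ x, t (b x) = t (c x)
  e01 : ∀ q, a (f2 q) = a (f3 q)
  e12 : ∀ q, a (f0 q) = b (f3 q)
  e02 : ∀ q, a (f1 q) = c (f3 q)
  e23 : ∀ q, b (f1 q) = b (f0 q)
  e13 : ∀ q, b (f2 q) = c (f0 q)
  e03 : ∀ q, c (f2 q) = c (f1 q)

section gen

variable (K : Type*) [CommRing K] {S S' M M' : Type*} [AddCommGroup M] [Module K M]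
  [AddCommGroup M'] [Module K M']

/-- evaluation of cochains on chains -/
abbrev ev (φ : S → M) : (S →₀ K) →ₗ[K] M := Finsupp.linearCombination K φ

/-- a simplex as a chain -/
abbrev sg (x : S) : S →₀ K := Finsupp.single x 1

/-- chains in `P` -/
abbrev ch (P : Set S) : Submodule K (S →₀ K) := Finsupp.supported K K P

variable {K}

theorem ev_sg (φ : S → M) (x : S) : ev K φ (sg K x) = φ x := by simp

theorem ev_ext {f g : (S →₀ K) →ₗ[K] M} (h : ∀ x, f (sg K x) = g (sg K x)) (c : S →₀ K) :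
    f c = g c :=
  LinearMap.congr_fun (Finsupp.lhom_ext' fun x => LinearMap.ext_ring (h x)) c


theorem ev_sub (φ ψ : S → M) (c : S →₀ K) : ev K (fun x => φ x - ψ x) c = ev K φ c - ev K ψ c :=
  ev_ext (g := ev K φ - ev K ψ) (fun x => by simp) c

theorem ev_add (φ ψ : S → M) (c : S →₀ K) : ev K (fun x => φ x + ψ x) c = ev K φ c + ev K ψ c :=
  ev_ext (g := ev K φ + ev K ψ) (fun x => by simp) c

theorem ev_map (f : M →ₗ[K] M') (φ : S → M) (c : S →₀ K) :
    ev K (fun x => f (φ x)) c = f (ev K φ c) :=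
  ev_ext (g := f ∘ₗ ev K φ) (fun x => by simp) c

theorem ev_mem {N : Submodule K M} {P : Set S} {φ : S → M} (h : ∀ x ∈ P, φ x ∈ N) {c : S →₀ K}
    (hc : c ∈ ch K P) : ev K φ c ∈ N := by
  rw [Finsupp.linearCombination_apply]
  exact sum_mem fun x hx => N.smul_mem _ (h x (hc hx))

theorem ev_congr {P : Set S} {φ ψ : S → M} (h : ∀ x ∈ P, φ x = ψ x) {c : S →₀ K}
    (hc : c ∈ ch K P) : ev K φ c = ev K ψ c := by
  rw [← sub_eq_zero, ← ev_sub]
  exact ev_mem (N := ⊥) (fun x hx => by simp [h x hx]) hc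

theorem sg_mem {P : Set S} {x : S} (h : x ∈ P) : sg K x ∈ ch K P :=
  Finsupp.single_mem_supported K 1 h

theorem mem_ch_univ (c : S →₀ K) : c ∈ ch K (univ : Set S) := subset_univ _

end gen

namespace Ds

variable {V E T Q : Type*} (D : Ds V E T Q) (K : Type*) [CommRing K]

/-- boundary of edges -/
def b1 : (E →₀ K) →ₗ[K] V →₀ K := ev K fun e => sg K (D.t e) - sg K (D.s e)

/-- boundary of triangles -/
def b2 : (T →₀ K) →ₗ[K] E →₀ K := ev K fun x => sg K (D.b x) - sg K (D.c x) + sg K (D.a x)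

/-- boundary of tetrahedra -/
def b3 : (Q →₀ K) →ₗ[K] T →₀ K :=
  ev K fun q => sg K (D.f0 q) - sg K (D.f1 q) + sg K (D.f2 q) - sg K (D.f3 q)

variable {K} {M : Type*} [AddCommGroup M]

/-- coboundaries -/
def d0 (φ : V → M) (e : E) : M := φ (D.t e) - φ (D.s e)

/-- coboundaries -/
def d1 (φ : E → M) (x : T) : M := φ (D.b x) - φ (D.c x) + φ (D.a x)

/-- coboundaries -/
def d2 (φ : T → M) (q : Q) : M := φ (D.f0 q) - φ (D.f1 q) + φ (D.f2 q) - φ (D.f3 q)



variable [Module K M]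

theorem ev_b1 (φ : V → M) (c : E →₀ K) : ev K φ (D.b1 K c) = ev K (D.d0 φ) c :=
  ev_ext (f := ev K φ ∘ₗ D.b1 K) (fun x => by simp [b1, d0]) c

theorem ev_b2 (φ : E → M) (c : T →₀ K) : ev K φ (D.b2 K c) = ev K (D.d1 φ) c :=
  ev_ext (f := ev K φ ∘ₗ D.b2 K) (fun x => by simp [b2, d1]) c




variable {R : Type*} [Ring R]

/-- curvature -/
def F (g : E → Rˣ) (x : T) : R := g (D.a x) * g (D.b x) - g (D.c x)

/-- gauge transformation -/
def ga (γ : V → Rˣ) (g : E → Rˣ) (e : E) : Rˣ := γ (D.s e) * g e * (γ (D.t e))⁻¹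

end Ds

/-- difference of two functions with values in units -/
def dif {S R : Type*} [Ring R] (g' g : S → Rˣ) (e : S) : R := g' e - g e

namespace Ds

variable {V E T Q : Type*} (D : Ds V E T Q) {R : Type*} [Ring R]


theorem F_sub (g' g : E → Rˣ) (x : T) : D.F g' x - D.F g x - D.d1 (dif g' g) x =
    dif g' g (D.a x) * (g' (D.b x) - 1) + (g (D.a x) - 1) * dif g' g (D.b x) := by
  simp only [F, d1, dif]; noncomm_ring


theorem F_one (x : T) : D.F (1 : E → Rˣ) x = 0 := by simp [F]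

theorem ga_one (g : E → Rˣ) : D.ga 1 g = g := by funext e; simp [ga]


end Ds

variable {p : ℕ} [Fact p.Prime] {K O : Type*} [CommRing K] [CommRing O] [Algebra K O]
  {G : Gr (Gm p) K O} {m I J : Ideal O} {S : Type*}

/-- `In I` as a submodule -/
def inS (G : Gr (Gm p) K O) (I : Ideal O) : Submodule K (Tw G) :=
  (I.restrictScalars K).comap (o G).toLinearMap

theorem ev_in {P : Set S} {φ : S → Tw G} (h : ∀ x ∈ P, In I (φ x)) {c : S →₀ K}
    (hc : c ∈ ch K P) : In I (ev K φ c) := ev_mem (N := inS G I) h hc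

theorem in_zero : In I (0 : Tw G) := (inS G I).zero_mem

theorem in_bot {x : Tw G} : In ⊥ x ↔ x = 0 := by simp [In]

theorem in_smul (r : K) {x : Tw G} (h : In I x) : In I (r • x) := (inS G I).smul_mem r h

/-- the graded ideal of the values of `φ` on `P` -/
def vI (φ : S → Tw G) (P : Set S) : Ideal O := G.sp ((fun x => o G (φ x)) '' P)

theorem id_vI (φ : S → Tw G) (P : Set S) : G.Id (vI φ P) := G.id_sp _

theorem in_vI (φ : S → Tw G) {P : Set S} {x : S} (h : x ∈ P) : In (vI φ P) (φ x) :=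
  Gr.mem_sp ⟨x, h, rfl⟩

theorem vI_le (hI : G.Id I) {φ : S → Tw G} {P : Set S} : vI φ P ≤ I ↔ ∀ x ∈ P, In I (φ x) :=
  hI.sp_le.trans forall_mem_image

/-- Nakayama with retreats, for values -/
theorem in_of_retreat {N : ℕ} (hm : G.Id m) (hN : m ^ N = ⊥) (hJ : G.Id J) {φ : S → Tw G}
    {P : ℕ → Set S} (h : ∀ i < N, ∀ I, G.Id I → (∀ x ∈ P (i + 1), In I (φ x)) →
      ∀ x ∈ P i, In (J ⊔ m * I) (φ x)) : ∀ x ∈ P 0, In J (φ x) :=
  (vI_le hJ).1 (nak_fin hN (I := fun i => vI φ (P i)) fun i hi =>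
    (vI_le (hJ.sup (hm.mul (id_vI _ _)))).2 (h i hi _ (id_vI _ _) fun _ => in_vI φ))

theorem in_lm (hm : G.Id m) (hI : G.Id I) {u : (Tw G)ˣ} (hu : u ∈ U hm) {x : Tw G} (hx : In I x) :
    In (m * I) (((u : Tw G) - 1) * x) := o_mul_mem hm hI hu hx

theorem in_rm (hm : G.Id m) (hI : G.Id I) {u : (Tw G)ˣ} (hu : u ∈ U hm) {x : Tw G} (hx : In I x) :
    In (m * I) (x * ((u : Tw G) - 1)) := mul_comm I m ▸ o_mul_mem hI hm hx hu

/-- nilpotent fixed point theorem in the congruence subgroup -/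
theorem fixU (hm : G.Id m) (hn : IsNilpotent m) (Φ : (S → U hm) → S → U hm)
    (hΦ : ∀ s s' I, G.Id I → (∀ i, In I ((s' i).1.val - (s i).1.val)) →
      ∀ i, In (m * I) ((Φ s' i).1.val - (Φ s i).1.val)) : ∃ s, Φ s = s := by
  obtain ⟨N, hN⟩ := hn
  have key : ∀ k i, In (m ^ k) ((Φ^[k + 1] 1 i).1.val - (Φ^[k] 1 i).1.val) := fun k => by
    induction k with
    | zero => simp [In]
    | succ k ih =>
      have := hΦ _ _ _ (hm.pow k) ih
      rwa [← Function.iterate_succ_apply' Φ, ← Function.iterate_succ_apply' Φ, ← pow_succ'] at this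
  refine ⟨Φ^[N] 1, funext fun i => Subtype.ext (Units.ext ?_)⟩
  have := key N i
  rw [hN, Function.iterate_succ_apply'] at this
  exact sub_eq_zero.1 (in_bot.1 this)

/-- `1 + x` in the congruence subgroup -/
def unU (hm : G.Id m) (hn : IsNilpotent m) (x : Tw G) (hx : In m x) : U hm :=
  ⟨un hm hn x hx, un_mem hm hn x hx hm hx⟩

@[simp] theorem val_unU (hm : G.Id m) (hn : IsNilpotent m) (x : Tw G) (hx : In m x) :
    (unU hm hn x hx).1.val = 1 + x := rfl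

theorem dif_in (hI : G.Id I) {g g' : S → (Tw G)ˣ} {e : S} (h' : g' e ∈ U hI) (h : g e ∈ U hI) :
    In I (dif g' g e) := by
  have : dif g' g e = (g' e - 1) - (g e - 1) := by simp [dif]
  rw [this]; exact In.sub h' h


namespace Ds

variable {V E T Q : Type*} (D : Ds V E T Q) {g g' g'' : E → (Tw G)ˣ}


theorem d1_in {φ : E → Tw G} {x : T} (h1 : In I (φ (D.a x))) (h2 : In I (φ (D.b x)))
    (h3 : In I (φ (D.c x))) : In I (D.d1 φ x) := In.add (In.sub h2 h3) h1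


theorem F_sub_in (hm : G.Id m) (hI : G.Id I) (hg : ∀ e, g e ∈ U hm) (hg' : ∀ e, g' e ∈ U hm) {x : T}
    (h1 : In I (dif g' g (D.a x))) (h2 : In I (dif g' g (D.b x))) :
    In (m * I) (D.F g' x - D.F g x - D.d1 (dif g' g) x) := by
  rw [F_sub]; exact In.add (in_rm hm hI (hg' _) h1) (in_lm hm hI (hg _) h2)

theorem F_sub_in' (hI : G.Id I) {x : T} (h1 : In I (dif g' g (D.a x))) (h2 : In I (dif g' g (D.b x)))
    (h3 : In I (dif g' g (D.c x))) : In I (D.F g' x - D.F g x) := by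
  rw [← sub_add_cancel (D.F g' x - D.F g x) (D.d1 (dif g' g) x), F_sub]
  exact In.add (In.add (mem_right hI _ h1) (mem_left hI _ h2)) (D.d1_in h1 h2 h3)

/-- the linear part of the curvature -/
theorem F_lin (hm : G.Id m) (hg : ∀ e, g e ∈ U hm) (x : T) :
    In (m * m) (D.F g x - D.d1 (dif g 1) x) := by
  have := D.F_sub_in hm hm (g := 1) (fun _ => one_mem _) hg (x := x)
    (dif_in hm (hg _) (one_mem _)) (dif_in hm (hg _) (one_mem _))
  rwa [F_one, sub_zero] at this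

theorem F_in (hm : G.Id m) (hg : ∀ e, g e ∈ U hm) (x : T) : In m (D.F g x) := by
  have := D.F_sub_in' hm (g := 1) (g' := g) (x := x) (dif_in hm (hg _) (one_mem _))
    (dif_in hm (hg _) (one_mem _)) (dif_in hm (hg _) (one_mem _))
  rwa [F_one, sub_zero] at this


theorem ga_U (hm : G.Id m) {γ : V → (Tw G)ˣ} (hγ : ∀ v, γ v ∈ U hm) (hg : ∀ e, g e ∈ U hm) (e : E) :
    D.ga γ g e ∈ U hm := mul_mem (mul_mem (hγ _) (hg _)) (inv_mem (hγ _))



end Ds

end Crest.Agent.N255.Ku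

end
end

-- ▼ part N255/Ku/Ku
section

/-!
# Row 255 (helper21): Kuranishi families relative to a subspace, gauge fixing, gluing
-/

set_option autoImplicit false
open Set

noncomputable section

namespace Crest.Agent.N255.Ku

open Cs Cs.Tw

variable {p : ℕ} [Fact p.Prime] {K O : Type*} [CommRing K] [CommRing O] [Algebra K O]
  {G : Gr (Gm p) K O} {m I J : Ideal O} {O' : Type*} [CommRing O'] [Algebra K O']
  {G' : Gr (Gm p) K O'} {φ : O →ₐ[K] O'}

theorem ev_um {S : Type*} (hφ : G.Hom G' φ) (ψ : S → Tw G) (c : S →₀ K) :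
    ev K (fun x => Tw.map hφ (ψ x)) c = Tw.map hφ (ev K ψ c) := ev_map (Tw.map hφ).toLinearMap ψ c

theorem dif_um {S : Type*} (hφ : G.Hom G' φ) (g' g : S → (Tw G)ˣ) (e : S) :
    dif (fun e => um hφ (g' e)) (fun e => um hφ (g e)) e = Tw.map hφ (dif g' g e) := by simp [dif]

theorem in_map (hφ : G.Hom G' φ) {I' : Ideal O'} (h : ∀ x ∈ I, φ x ∈ I') {x : Tw G} (hx : In I x) :
    In I' (Tw.map hφ x) := h _ hx

namespace Ds

variable {V E T Q : Type*} (D : Ds V E T Q) {g g' g'' : E → (Tw G)ˣ}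

theorem F_um (hφ : G.Hom G' φ) (g : E → (Tw G)ˣ) (x : T) :
    D.F (fun e => um hφ (g e)) x = Tw.map hφ (D.F g x) := by simp [F]

theorem ga_um (hφ : G.Hom G' φ) (γ : V → (Tw G)ˣ) (g : E → (Tw G)ˣ) :
    D.ga (fun v => um hφ (γ v)) (fun e => um hφ (g e)) = fun e => um hφ (D.ga γ g e) := by
  funext e; simp [ga]

/-- curvature of `g'` without the coboundary of `g' - g` -/
def Nl (g g' : E → (Tw G)ˣ) (x : T) : Tw G := D.F g' x - D.d1 (dif g' g) x

/-- `g'` is the Kuranishi correction of `g` for the contraction `h` -/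
def Kr (h : (E →₀ K) →ₗ[K] T →₀ K) (g g' : E → (Tw G)ˣ) : Prop :=
  ∀ e, dif g' g e = -ev K (D.Nl g g') (h (sg K e))

theorem Nl_sub (hm : G.Id m) (hI : G.Id I) (hg' : ∀ e, g' e ∈ U hm) (hg'' : ∀ e, g'' e ∈ U hm) {x : T}
    (h1 : In I (dif g'' g' (D.a x))) (h2 : In I (dif g'' g' (D.b x))) :
    In (m * I) (D.Nl g g'' x - D.Nl g g' x) := by
  convert D.F_sub_in hm hI hg' hg'' h1 h2 using 1
  simp only [Nl, d1, dif]; abel

theorem Nl_in (hm : G.Id m) (hI : G.Id I) (hg : ∀ e, g e ∈ U hm) (hg' : ∀ e, g' e ∈ U hm) {x : T}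
    (h1 : In I (dif g' g (D.a x))) (h2 : In I (dif g' g (D.b x))) :
    In (m * I) (D.Nl g g' x - D.F g x) := by
  convert D.F_sub_in hm hI hg hg' h1 h2 using 1
  simp only [Nl]; abel



variable {D} {h : (E →₀ K) →ₗ[K] T →₀ K}

theorem Kr.ev_dif (k : D.Kr h g g') (c : E →₀ K) :
    ev K (dif g' g) c = -ev K (D.Nl g g') (h c) :=
  ev_ext (g := -(ev K (D.Nl g g') ∘ₗ h)) (fun e => by rw [ev_sg, k e]; rfl) c

theorem Kr.zero (k : D.Kr h g g') {c : E →₀ K} (hc : h c = 0) : ev K (dif g' g) c = 0 := by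
  rw [k.ev_dif, hc, map_zero, neg_zero]

/-- `g'` extends `g` -/
theorem Kr.eq (k : D.Kr h g g') {e : E} (he : h (sg K e) = 0) : g' e = g e :=
  Units.ext (sub_eq_zero.1 (by simpa [dif] using k.zero he))

theorem ev_Nl (D : Ds V E T Q) (g g' : E → (Tw G)ˣ) (c : T →₀ K) :
    ev K (D.Nl g g') c = ev K (D.F g') c - ev K (dif g' g) (D.b2 K c) := by
  rw [ev_b2, ← ev_sub]; rfl

theorem Kr.curv' (k : D.Kr h g g') (c : T →₀ K) :
    ev K (D.F g') c = ev K (D.Nl g g') (c - h (D.b2 K c)) := by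
  rw [map_sub, ev_Nl _ _ _ c, k.ev_dif]; abel

/-- **the curvature only sees the projection to (relative) cycles** -/
theorem Kr.curv (k : D.Kr h g g') {c : T →₀ K} (hc : h (D.b2 K (c - h (D.b2 K c))) = 0) :
    ev K (D.F g') c = ev K (D.F g') (c - h (D.b2 K c)) := by
  rw [k.curv' c, ev_Nl, k.zero hc, sub_zero]

theorem Kr.map (k : D.Kr h g g') (hφ : G.Hom G' φ) :
    D.Kr h (fun e => um hφ (g e)) fun e => um hφ (g' e) := fun e => by
  rw [dif_um, k e, map_neg, ← ev_um]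
  congr 3
  funext x
  simp only [Nl, F_um, d1, dif_um, map_sub, map_add]

theorem Kr.uniq (hm : G.Id m) (hn : IsNilpotent m) (k : D.Kr h g g') (k' : D.Kr h g g'')
    (hg' : ∀ e, g' e ∈ U hm) (hg'' : ∀ e, g'' e ∈ U hm) : g'' = g' := by
  obtain ⟨N, hN⟩ := hn
  have := in_of_retreat hm hN G.id_bot (φ := dif g'' g') (P := fun _ => univ)
    fun i _ I hI h1 e _ => by
      have e1 : dif g'' g' e = dif g'' g e - dif g' g e := by simp [dif]
      rw [e1, k e, k' e, neg_sub_neg, ← neg_sub, ← ev_sub]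
      exact (In.neg (ev_in (fun x _ => D.Nl_sub hm hI hg' hg'' (h1 _ trivial) (h1 _ trivial))
        (mem_ch_univ _))).mono le_sup_right
  funext e
  exact Units.ext (sub_eq_zero.1 (in_bot.1 (this e trivial)))



/-- first order form of the correction -/
theorem Kr.first (hm : G.Id m) (hJ : G.Id J) (k : D.Kr h g g') (hg : ∀ e, g e ∈ U hm)
    (hg' : ∀ e, g' e ∈ U hm) {P : Set T}
    (hP : ∀ x ∈ P, In J (dif g' g (D.a x)) ∧ In J (dif g' g (D.b x))) {c : E →₀ K}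
    (hc : h c ∈ ch K P) : In (m * J) (ev K (dif g' g) c + ev K (D.F g) (h c)) := by
  rw [k.ev_dif, neg_add_eq_sub, ← neg_sub, ← ev_sub]
  exact In.neg (ev_in (fun x hx => D.Nl_in hm hJ hg hg' (hP x hx).1 (hP x hx).2) hc)

/-! ### gauge fixing -/

variable (D)

/-- `γ g' - g` without the coboundary of `γ` -/
def Gl (γ : V → (Tw G)ˣ) (g g' : E → (Tw G)ˣ) (e : E) : Tw G :=
  dif (D.ga γ g') g e + D.d0 (dif γ 1) e

/-- `γ` brings `g'` into the gauge of `g` -/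
def Gf (h0 : (V →₀ K) →ₗ[K] E →₀ K) (g g' : E → (Tw G)ˣ) (γ : V → (Tw G)ˣ) : Prop :=
  ∀ v, dif γ 1 v = ev K (D.Gl γ g g') (h0 (sg K v))

theorem Gl_sub (hm : G.Id m) (hI : G.Id I) (hg' : ∀ e, g' e ∈ U hm) {γ γ' : V → (Tw G)ˣ}
    (hγ : ∀ v, γ v ∈ U hm) (hγ' : ∀ v, γ' v ∈ U hm) {e : E} (h1 : In I (dif γ' γ (D.s e)))
    (h2 : In I (dif γ' γ (D.t e))) : In (m * I) (D.Gl γ' g g' e - D.Gl γ g g' e) := by
  have e1 : D.Gl γ' g g' e - D.Gl γ g g' e =
      dif γ' γ (D.s e) * ((g' e * (γ' (D.t e))⁻¹).val - 1) -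
        ((D.ga γ g' e).val - 1) * (dif γ' γ (D.t e) * (γ' (D.t e))⁻¹.val) -
        dif γ' γ (D.t e) * ((γ' (D.t e))⁻¹.val - 1) := by
    simp only [Gl, d0, dif, ga, Units.val_mul, Pi.one_apply, Units.val_one, sub_mul, mul_sub,
      Units.mul_inv, mul_one, one_mul, mul_assoc, Units.inv_mul_cancel_left]
    abel
  rw [e1]
  exact In.sub (In.sub (in_rm hm hI (mul_mem (hg' e) (inv_mem (hγ' _))) h1)
    (in_lm hm hI (D.ga_U hm hγ hg' e) (mem_right hI _ h2))) (in_rm hm hI (inv_mem (hγ' _)) h2)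

theorem Gl_one (g g' : E → (Tw G)ˣ) (e : E) : D.Gl 1 g g' e = dif g' g e := by
  simp [Gl, ga_one, d0, dif]

theorem Gl_in (hm : G.Id m) (hI : G.Id I) (hg' : ∀ e, g' e ∈ U hm) {γ : V → (Tw G)ˣ}
    (hγ : ∀ v, γ v ∈ U hm) {e : E} (h1 : In I (dif γ 1 (D.s e))) (h2 : In I (dif γ 1 (D.t e))) :
    In (m * I) (D.Gl γ g g' e - dif g' g e) := by
  rw [← D.Gl_one]; exact D.Gl_sub hm hI hg' (fun _ => one_mem _) hγ h1 h2



variable {D} {h0 : (V →₀ K) →ₗ[K] E →₀ K} {γ : V → (Tw G)ˣ}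

theorem Gf.ev_dif (k : D.Gf h0 g g' γ) (c : V →₀ K) :
    ev K (dif γ 1) c = ev K (D.Gl γ g g') (h0 c) :=
  ev_ext (g := ev K (D.Gl γ g g') ∘ₗ h0) (fun e => by rw [ev_sg, k e]; rfl) c

theorem Gf.zero (k : D.Gf h0 g g' γ) {c : V →₀ K} (hc : h0 c = 0) : ev K (dif γ 1) c = 0 := by
  rw [k.ev_dif, hc, map_zero]

theorem Gf.eq (k : D.Gf h0 g g' γ) {v : V} (hv : h0 (sg K v) = 0) : γ v = 1 :=
  Units.ext (sub_eq_zero.1 (by simpa [dif] using k.zero hv))

theorem ev_Gl (D : Ds V E T Q) (γ : V → (Tw G)ˣ) (g g' : E → (Tw G)ˣ) (c : E →₀ K) :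
    ev K (D.Gl γ g g') c = ev K (dif (D.ga γ g') g) c + ev K (dif γ 1) (D.b1 K c) := by
  rw [ev_b1, ← ev_add]; rfl

theorem Gf.per' (k : D.Gf h0 g g' γ) (c : E →₀ K) :
    ev K (dif (D.ga γ g') g) c = ev K (D.Gl γ g g') (c - h0 (D.b1 K c)) := by
  rw [map_sub, ev_Gl _ _ _ _ c, k.ev_dif]; abel

/-- **the difference only sees the projection to (relative) cycles** -/
theorem Gf.per (k : D.Gf h0 g g' γ) {c : E →₀ K} (hc : h0 (D.b1 K (c - h0 (D.b1 K c))) = 0) :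
    ev K (dif (D.ga γ g') g) c = ev K (dif (D.ga γ g') g) (c - h0 (D.b1 K c)) := by
  rw [k.per' c, ev_Gl, k.zero hc, add_zero]

theorem Gf.map (k : D.Gf h0 g g' γ) (hφ : G.Hom G' φ) :
    D.Gf h0 (fun e => um hφ (g e)) (fun e => um hφ (g' e)) fun v => um hφ (γ v) := fun v => by
  have e1 : ∀ v, dif (fun v => um hφ (γ v)) 1 v = Tw.map hφ (dif γ 1 v) := fun v => by simp [dif]
  rw [e1, k v, ← ev_um]
  congr 2
  funext x
  simp only [Gl, ga_um, d0, e1, dif_um, map_sub, map_add]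


/-! ### gluing -/

variable (D)

open Classical in
/-- `g` on the edges of `A`, `g'` elsewhere -/
def _root_.Crest.Agent.N255.Ku.glue {R : Type*} (A : Set E) (g g' : E → R) (e : E) : R :=
  if e ∈ A then g e else g' e





end Ds

end Crest.Agent.N255.Ku

end
end

-- ▼ part N255/Ku/Sing
section

/-!
# Row 255 (helper21): Kuranishi families and gauge comparison on singular simplices
-/

set_option autoImplicit false
open Set

noncomputable section

namespace Crest.Agent.N255.Ku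

open Cs Cs.Tw Tp


/-- the singular simplices of dimension at most three -/
def sD (X : Type) [TopologicalSpace X] : Ds (Sx 0 X) (Sx 1 X) (Sx 2 X) (Sx 3 X) where
  s σ := e1 σ 0
  t σ := e1 σ 1
  a σ := e2 σ 0 1
  b σ := e2 σ 1 2
  c σ := e2 σ 0 2
  f0 σ := e3 σ 1 2 3
  f1 σ := e3 σ 0 2 3
  f2 σ := e3 σ 0 1 3
  f3 σ := e3 σ 0 1 2
  sa _ := by simp only [e1_sub]; rfl
  ta _ := by simp only [e1_sub]; rfl
  tb _ := by simp only [e1_sub]; rfl
  e01 _ := by simp only [e2_sub]; rfl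
  e12 _ := by simp only [e2_sub]; rfl
  e02 _ := by simp only [e2_sub]; rfl
  e23 _ := by simp only [e2_sub]; rfl
  e13 _ := by simp only [e2_sub]; rfl
  e03 _ := by simp only [e2_sub]; rfl

variable {X : Type} [TopologicalSpace X]

section gen

variable (k : Type) [CommRing k] {A : Type} [AddCommGroup A] [Module k A]

theorem cob_d0 (φ : Co A 0 X) (σ : Sx 1 X) : cob k φ σ = φ (e1 σ 1) - φ (e1 σ 0) := by
  have h0 : Tp.fc σ 0 = e1 σ 1 := sub_congr σ fun t => by fin_cases t; rfl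
  have h1 : Tp.fc σ 1 = e1 σ 0 := sub_congr σ fun t => by fin_cases t; rfl
  simp [cob_apply, Fin.sum_univ_two, h0, h1, sub_eq_add_neg]

theorem sD_d0 (φ : Co A 0 X) : (sD X).d0 φ = cob k φ := funext fun σ => (cob_d0 k φ σ).symm

theorem sD_d1 (φ : Co A 1 X) : (sD X).d1 φ = cob k φ := funext fun σ => (cob_d1 k φ σ).symm


theorem sD_b1 : (sD X).b1 k = bd k := LinearMap.ext fun c =>
  ev_ext (fun σ => (Ku.ev_sg _ σ).trans ((cob_d0 k _ σ).symm.trans (cob_taut σ))) c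

theorem sD_b2 : (sD X).b2 k = bd k := LinearMap.ext fun c =>
  ev_ext (fun σ => (Ku.ev_sg _ σ).trans ((cob_d1 k (fun τ => Tp.sg k τ) σ).symm.trans (cob_taut σ))) c


end gen




variable {p : ℕ} [Fact p.Prime] {K O : Type} [CommRing O]

section ring

variable [CommRing K] [Algebra K O] {G : Gr (Gm p) K O} {m I J : Ideal O} {hm : G.Id m}
  {P P' : Sb X} {g g' : Cn G X} {n : ℕ}




/-- one retreat for the curvature -/
theorem cur_step (hI : G.Id I) (h : CU P' hm g) (f : CI P' I (cur g))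
    (hP : ∀ σ ∈ P.S 2, ∃ b ∈ P'.B K 2, In J (cur g σ - Tp.ev K (cur g) b)) :
    CI P (J ⊔ m * I) (cur g) := fun σ hσ => by
  obtain ⟨_, ⟨c, hc, rfl⟩, h2⟩ := hP σ hσ
  rw [← sub_add_cancel (cur g σ) (Tp.ev K (cur g) (bd K c))]
  refine In.add (h2.mono le_sup_left) (In.mono ?_ le_sup_right)
  rw [ev_bd]
  exact (cob_cur_mem hI h f).ev hc

/-- one retreat for the difference of two connections -/
theorem dif_step (hI : G.Id I) (h : CU P' hm g) (h' : CU P' hm g') (f : CI P' I (Cs.dif g' g))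
    (hF : CI P' J (cur g' - cur g))
    (hP : ∀ σ ∈ P.S 1, ∃ b ∈ P'.B K 1, In J (Cs.dif g' g σ - Tp.ev K (Cs.dif g' g) b)) :
    CI P (J ⊔ m * I) (Cs.dif g' g) := fun σ hσ => by
  obtain ⟨_, ⟨c, hc, rfl⟩, h2⟩ := hP σ hσ
  rw [← sub_add_cancel (Cs.dif g' g σ) (Tp.ev K (Cs.dif g' g) (bd K c))]
  refine In.add (h2.mono le_sup_left) ?_
  rw [ev_bd]
  refine CI.ev (fun x hx => ?_) hc
  rw [← sub_sub_cancel ((cur g' - cur g) x) (cob K (Cs.dif g' g) x)]
  refine In.sub ((hF x hx).mono le_sup_left) (In.mono ?_ le_sup_right)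
  have := (sD X).F_sub g' g x
  rw [sD_d1 K] at this
  exact this ▸ In.add (in_rm hm hI (h'.gs hx 1 2) (f.df hx 0 1)) (in_lm hm hI (h.gs hx 0 1) (f.df hx 1 2))

/-- retreats along a chain of families -/
theorem ci_of_retreat {N : ℕ} (hm : G.Id m) (hN : m ^ N = ⊥) (hJ : G.Id J) {φ : Co (Tw G) n X}
    {P : ℕ → Sb X} (h : ∀ i < N, ∀ I, G.Id I → CI (P (i + 1)) I φ → CI (P i) (J ⊔ m * I) φ) :
    CI (P 0) J φ := in_of_retreat hm hN hJ (P := fun i => (P i).S n) h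

theorem ci_of_step (hm : G.Id m) (hn : IsNilpotent m) (hJ : G.Id J) {φ : Co (Tw G) n X}
    (h : ∀ I, G.Id I → CI P I φ → CI P (J ⊔ m * I) φ) : CI P J φ := by
  obtain ⟨N, hN⟩ := hn
  exact ci_of_retreat hm hN hJ (P := fun _ => P) fun _ _ => h

/-- the linear part of the curvature -/
theorem cur_lin (h : CU P hm g) {c : Ch K 2 X} (hc : c ∈ P.ch K 2) :
    In (m * m) (Tp.ev K (cur g) c - Tp.ev K (Cs.dif g 1) (bd K c)) := by
  rw [ev_bd, ← Tp.ev_sub]
  refine CI.ev (fun x hx => ?_) hc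
  have := (sD X).F_sub g 1 x
  rw [sD_d1 K, Ds.F_one, sub_zero] at this
  have h1 : In m (Ku.dif g 1 ((sD X).a x)) := h.gs hx 0 1
  change In _ ((sD X).F g x - cob K (Ku.dif g 1) x)
  rw [this]
  exact In.add (in_rm hm hm (h.gs hx 1 2) h1) (by simpa using in_zero)






end ring

variable [Field K] [Algebra K O] {G : Gr (Gm p) K O} {m I J : Ideal O} {g g' : Cn G X}

/-- the projection data of a flag `P 0 ≤ … ≤ P n` relative to `N` -/
structure Ctr {l : ℕ} (N : Submodule K (Ch K l X)) (P : ℕ → Sb X) (n : ℕ)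
    (h : Ch K l X →ₗ[K] Ch K (l + 1) X) : Prop where
  zero : ∀ y ∈ N, h y = 0
  mem : ∀ y, h y ∈ (P n).ch K (l + 1)
  inv : ∀ i ≤ n, ∀ c ∈ (P i).ch K (l + 1), h (bd K c) ∈ (P i).ch K (l + 1) ∧ bd K (c - h (bd K c)) ∈ N
  ctl : ∀ i ≤ n, ∀ j ≤ n, ((P i).ch K l ⊔ N) ⊓ ((P n).B K l ⊔ N) ≤ (P j).B K l ⊔ N →
    ∀ y ∈ (P i).ch K l, h y ∈ (P j).ch K (l + 1)


variable {N : Submodule K (Ch K 1 X)} {N0 : Submodule K (Ch K 0 X)} {P : ℕ → Sb X} {n : ℕ}
  {h : Ch K 1 X →ₗ[K] Ch K 2 X} {h0 : Ch K 0 X →ₗ[K] Ch K 1 X} {γ : Sx 0 X → (Tw G)ˣ}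

theorem Ctr.cur (c : Ctr N P n h) (k : (sD X).Kr h g g') {i : ℕ} (hi : i ≤ n) {x : Ch K 2 X}
    (hx : x ∈ (P i).ch K 2) : Tp.ev K (cur g') x = Tp.ev K (cur g') (x - h (bd K x)) := by
  have := k.curv (c := x) (by rw [sD_b2]; exact c.zero _ (c.inv i hi x hx).2)
  rwa [sD_b2] at this

theorem Ctr.per (c : Ctr N0 P n h0) (k : (sD X).Gf h0 g g' γ) {i : ℕ} (hi : i ≤ n) {x : Ch K 1 X}
    (hx : x ∈ (P i).ch K 1) :
    Tp.ev K (Cs.dif (gag γ g') g) x = Tp.ev K (Cs.dif (gag γ g') g) (x - h0 (bd K x)) := by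
  have := k.per (c := x) (by rw [sD_b1]; exact c.zero _ (c.inv i hi x hx).2)
  rwa [sD_b1] at this

/-- the values of `φ` on `P` are values on cycles of `P` relative to `N` -/
def RC {l : ℕ} (N : Submodule K (Ch K l X)) (P : Sb X) (φ : Co (Tw G) (l + 1) X) : Prop :=
  ∀ c ∈ P.ch K (l + 1), ∃ c' ∈ P.ch K (l + 1), bd K c' ∈ N ∧ Tp.ev K φ c = Tp.ev K φ c'

theorem RC.step {l : ℕ} {N : Submodule K (Ch K l X)} {Q Q' : Sb X} {φ : Co (Tw G) (l + 1) X}
    (h : RC N Q φ) {Z : Submodule K (Ch K (l + 1) X)} (hZ : ∀ z ∈ Z, In J (Tp.ev K φ z))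
    (hH : ∀ c ∈ Q.ch K (l + 1), bd K c ∈ N → c ∈ Z ⊔ Q'.B K (l + 1)) :
    ∀ σ ∈ Q.S (l + 1), ∃ b ∈ Q'.B K (l + 1), In J (φ σ - Tp.ev K φ b) := fun σ hσ => by
  obtain ⟨c, hc, h1, h2⟩ := h _ (Sb.sg_mem hσ)
  obtain ⟨z, hz, b, hb, rfl⟩ := Submodule.mem_sup.1 (hH c hc h1)
  refine ⟨b, hb, ?_⟩
  rw [← Tp.ev_sg (k := K) φ σ, h2, map_add, add_sub_cancel_right]
  exact hZ z hz

theorem RC.map {l : ℕ} {N : Submodule K (Ch K l X)} {Q : Sb X} {φ : Co (Tw G) (l + 1) X}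
    (h : RC N Q φ) {O' : Type} [CommRing O'] [Algebra K O'] {G' : Gr (Gm p) K O'} {ψ : O →ₐ[K] O'}
    (hψ : G.Hom G' ψ) {φ' : Co (Tw G') (l + 1) X} (e : ∀ σ, φ' σ = Tw.map hψ (φ σ)) : RC N Q φ' :=
  fun c hc => by
    obtain ⟨c', h1, h2, h3⟩ := h c hc
    obtain rfl : φ' = fun σ => Tw.map hψ (φ σ) := funext e
    exact ⟨c', h1, h2, (ev_um hψ φ c).trans ((congrArg _ h3).trans (ev_um hψ φ c').symm)⟩



/-- one retreat: the curvature on `Q` is generated by its values on `Z` -/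
theorem RC.cur {hm : G.Id m} {Q Q' : Sb X} (r : RC N Q (cur g)) (hI : G.Id I) (h : CU Q' hm g)
    (f : CI Q' I (cur g)) {Z : Submodule K (Ch K 2 X)} (hZ : ∀ z ∈ Z, In J (Tp.ev K (cur g) z))
    (hH : ∀ c ∈ Q.ch K 2, bd K c ∈ N → c ∈ Z ⊔ Q'.B K 2) : CI Q (J ⊔ m * I) (cur g) :=
  cur_step hI h f (r.step hZ hH)


/-- one retreat: the difference on `Q` is generated by its periods on `Z` and the curvatures -/
theorem RC.dif {hm : G.Id m} {Q Q' : Sb X} (r : RC N0 Q (Cs.dif g' g)) (hI : G.Id I)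
    (h : CU Q' hm g) (h' : CU Q' hm g') (f : CI Q' I (Cs.dif g' g))
    (hF : CI Q' J (Cs.cur g' - Cs.cur g)) {Z : Submodule K (Ch K 1 X)}
    (hZ : ∀ z ∈ Z, In J (Tp.ev K (Cs.dif g' g) z))
    (hH : ∀ c ∈ Q.ch K 1, bd K c ∈ N0 → c ∈ Z ⊔ Q'.B K 1) : CI Q (J ⊔ m * I) (Cs.dif g' g) :=
  dif_step hI h h' f hF (r.step hZ hH)


end Crest.Agent.N255.Ku

end
end

-- ▼ part N255/Ku/Vers

/-!
# Row 255 (helper21): universal families, substitution by periods, versality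
-/

set_option autoImplicit false
open Set Function

noncomputable section

namespace Crest.Agent.N255.Ku

open Cs Cs.Tw Tp Tg _root_.N255.Dr _root_.N255.Dr.O

section abs

variable {p : ℕ} [Fact p.Prime] {K O O' : Type*} [CommRing K] [CommRing O] [Algebra K O]
  [CommRing O'] [Algebra K O'] {G : Gr (Gm p) K O} {G' : Gr (Gm p) K O'} {m : Ideal O}
  {m' : Ideal O'} {ι : Type*}

/-- substitutions with free values on the elements `X j` -/
structure Fr (G : Gr (Gm p) K O) (m : Ideal O) {m' : Ideal O'} (hm' : G'.Id m') (X : ι → Tw G) where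
  Φ : (ι → U hm') → O →ₐ[K] O'
  hom : ∀ w, G.Hom G' (Φ w)
  loc : ∀ w, ∀ x ∈ m, Φ w x ∈ m'
  val : ∀ w j, Tw.map (hom w) (X j) = (w j).1.val - 1
  lip : ∀ w w' I, G'.Id I → (∀ j, In I ((w' j).1.val - (w j).1.val)) → ∀ x, Φ w' x - Φ w x ∈ I

variable {hm' : G'.Id m'} {X : ι → Tw G} (S : Fr G m hm' X)

/-- elements that do not depend on the free values to first order -/
def Fr.Sm (r : Tw G) : Prop := In m r ∧ ∀ w w' I, G'.Id I →
  (∀ j, In I ((w' j).1.val - (w j).1.val)) → In (m' * I) (Tw.map (S.hom w') r - Tw.map (S.hom w) r)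

theorem Fr.sm_sq {r : Tw G} (h : In (m * m) r) : S.Sm r :=
  ⟨h.mono Ideal.mul_le_left, fun w w' I hI h1 => by
    change S.Φ w' (o G r) - S.Φ w (o G r) ∈ m' * I
    refine Submodule.mul_induction_on h (fun x hx y hy => ?_) fun x y hx hy => ?_
    · have : S.Φ w' (x * y) - S.Φ w (x * y) =
          S.Φ w' y * (S.Φ w' x - S.Φ w x) + S.Φ w x * (S.Φ w' y - S.Φ w y) := by
        simp only [map_mul]; ring
      rw [this]
      exact add_mem (Ideal.mul_mem_mul (S.loc _ _ hy) (S.lip w w' I hI h1 x))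
        (Ideal.mul_mem_mul (S.loc _ _ hx) (S.lip w w' I hI h1 y))
    · convert add_mem hx hy using 1
      simp only [map_add]; ring⟩

/-- **solving equations** `f j = t j` -/
theorem Fr.solve (hn : IsNilpotent m') {f : ι → Tw G} (hf : ∀ j, S.Sm (f j - X j)) {t : ι → Tw G'}
    (ht : ∀ j, In m' (t j)) : ∃ w, ∀ j, Tw.map (S.hom w) (f j) = t j := by
  have key : ∀ w j, In m' (t j - Tw.map (S.hom w) (f j - X j)) := fun w j =>
    In.sub (ht j) (S.loc w _ (hf j).1)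
  obtain ⟨w, hw⟩ := fixU hm' hn (fun w j => unU hm' hn _ (key w j)) fun w w' I hI h1 j => by
    simp only [val_unU, add_sub_add_left_eq_sub, sub_sub_sub_cancel_left]
    rw [← neg_sub]
    exact In.neg ((hf j).2 w w' I hI h1)
  refine ⟨w, fun j => ?_⟩
  have := congrArg (fun w => (w j).1.val) hw
  simp only [val_unU, map_sub, S.val] at this
  rw [← sub_eq_zero, ← neg_eq_zero, ← sub_eq_zero.2 this]
  abel

/-- control of the solution -/
theorem Fr.ctl (hn : IsNilpotent m') {f : ι → Tw G} (hf : ∀ j, S.Sm (f j - X j)) {w w' : ι → U hm'}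
    {J : Ideal O'} (hJ : G'.Id J)
    (h : ∀ j, In J (Tw.map (S.hom w') (f j) - Tw.map (S.hom w) (f j))) (j : ι) :
    In J ((w' j).1.val - (w j).1.val) := by
  obtain ⟨N, hN⟩ := hn
  refine in_of_retreat hm' hN hJ (φ := fun j => (w' j).1.val - (w j).1.val) (P := fun _ => univ)
    (fun _ _ I hI h1 j _ => ?_) j trivial
  have := In.sub ((h j).mono (le_sup_left (b := m' * I)))
    (((hf j).2 w w' I hI fun j => h1 j trivial).mono le_sup_right)
  simp only [map_sub, S.val] at this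
  convert this using 1
  abel

variable {V E T Q : Type*} (D : Ds V E T Q)


end abs

variable {p : ℕ} [Fact p.Prime] {K : Type} {σ ι : Type} {A : Type} [CommRing A]

section ring

variable [CommRing K] [Algebra K A] {GO : Gr (Gm p) K (O p K σ)} {G : Gr (Gm p) K A} {d : σ → Gm p}
  {m : Ideal A} {e : ι × Gm p → σ}

/-- the generic element in the variables `e (j, γ)` -/
def XX (GO : Gr (Gm p) K (O p K σ)) (e : ι × Gm p → σ) (j : ι) : Tw GO := up GO (∑ γ, z (e (j, γ)))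

theorem XX_in (j : ι) : In mx (XX GO e j) := sum_mem fun _ _ => z_mem _

theorem pr_XX (hO : ∀ i, GO.Hg (d i) (z i)) (hd : ∀ q, d (e q) = q.2) (j : ι) (γ : Gm p) :
    GO.pr γ (o GO (XX GO e j)) = z (e (j, γ)) := by
  change GO.pr γ (∑ γ, z (e (j, γ))) = _
  rw [map_sum, Finset.sum_eq_single γ (fun c _ hc => (hO _).ne (by rw [hd]; exact hc.symm)) (by simp)]
  exact (hO _).cast (hd _)

omit [Fact p.Prime] in
theorem sub_mem_of_z (φ ψ : O p K σ →ₐ[K] A) {I : Ideal A} (h : ∀ u, ψ (z u) - φ (z u) ∈ I)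
    (x : O p K σ) : ψ x - φ x ∈ I := by
  have : (Ideal.Quotient.mkₐ K I).comp ψ = (Ideal.Quotient.mkₐ K I).comp φ :=
    hom_ext fun u => Ideal.Quotient.eq.2 (h u)
  exact Ideal.Quotient.eq.1 (AlgHom.congr_fun this x)

variable [Fintype σ]

/-- the values on `XX j` are free, the other variables follow `φ` -/
def frO (hm : G.Id m) (hp : ∀ x ∈ m, x ^ p = 0) (hO : ∀ i, GO.Hg (d i) (z i))
    (hd : ∀ q, d (e q) = q.2) (he : Injective e) (φ : O p K σ →ₐ[K] A)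
    (hφ : ∀ u, G.Hg (d u) (φ (z u)) ∧ φ (z u) ∈ m) : Fr GO mx hm (XX GO e) :=
  have hu : ∀ (w : ι → U hm) u, G.Hg (d u) (upd hp e φ (fun q => G.pr q.2 (o G ((w q.1).1.val - 1)))
      (fun q => hm _ _ (w q.1).2) (z u)) ∧ upd hp e φ (fun q => G.pr q.2 (o G ((w q.1).1.val - 1)))
      (fun q => hm _ _ (w q.1).2) (z u) ∈ m := fun w u => by
    by_cases h : u ∈ range e
    · obtain ⟨q, rfl⟩ := h
      rw [upd_e hp he, hd]; exact ⟨G.hg_pr _ _, hm _ _ (w q.1).2⟩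
    · rw [upd_not hp e φ _ _ h]; exact hφ u
  { Φ w := upd hp e φ (fun q => G.pr q.2 (o G ((w q.1).1.val - 1))) fun q => hm _ _ (w q.1).2
    hom w := hom_of_z hO fun u => (hu w u).1
    loc w _ hx := map_mx _ (fun u => (hu w u).2) hx
    val w j := (o G).injective (by
      rw [o_map]
      change upd hp e φ _ _ (∑ γ, z (e (j, γ))) = _
      simp only [map_sum, upd_e hp he]
      exact G.sum _)
    lip w w' I hI h := sub_mem_of_z _ _ fun u => by
      by_cases h1 : u ∈ range e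
      · obtain ⟨q, rfl⟩ := h1
        rw [upd_e hp he, upd_e hp he, ← map_sub, ← map_sub, sub_sub_sub_cancel_right]
        exact hI _ _ (h q.1)
      · rw [upd_not hp e φ _ _ h1, upd_not hp e φ _ _ h1, sub_self]; exact zero_mem _ }

/-- the ideal of the frozen variables -/
def fz (K : Type) [CommRing K] (p : ℕ) (e : ι × Gm p → σ) : Ideal (O p K σ) :=
  Ideal.span (z '' (range e)ᶜ)

variable {hm : G.Id m} {hp : ∀ x ∈ m, x ^ p = 0} {hO : ∀ i, GO.Hg (d i) (z i)}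
  {hd : ∀ q, d (e q) = q.2} {he : Injective e} {φ : O p K σ →ₐ[K] A}
  {hφ : ∀ u, G.Hg (d u) (φ (z u)) ∧ φ (z u) ∈ m}

theorem frO_not (w : ι → U hm) {u : σ} (hu : u ∉ range e) :
    (frO hm hp hO hd he φ hφ).Φ w (z u) = φ (z u) := upd_not hp e φ _ (fun q => hm _ _ (w q.1).2) hu

theorem frO_z (w : ι → U hm) (u : σ) : G.Hg (d u) ((frO hm hp hO hd he φ hφ).Φ w (z u)) ∧
    (frO hm hp hO hd he φ hφ).Φ w (z u) ∈ m :=
  ⟨((frO hm hp hO hd he φ hφ).hom w).hg (hO u), (frO hm hp hO hd he φ hφ).loc w _ (z_mem u)⟩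

theorem frO_sm {r : Tw GO} (h : In (mx * mx ⊔ fz K p e) r) : (frO hm hp hO hd he φ hφ).Sm r := by
  set S := frO hm hp hO hd he φ hφ
  have hz : fz K p e ≤ mx := Ideal.span_le.2 (by rintro _ ⟨u, -, rfl⟩; exact z_mem u)
  refine ⟨h.mono (sup_le Ideal.mul_le_left hz), fun w w' I hI h1 => ?_⟩
  obtain ⟨a, ha, b, hb, e1⟩ := Submodule.mem_sup.1 h
  have h2 : S.Φ w' a - S.Φ w a ∈ m * I := (S.sm_sq (r := up GO a) ha).2 w w' I hI h1
  have h3 : ∀ c, S.Φ w' (c * b) - S.Φ w (c * b) ∈ m * I := by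
    clear e1
    induction hb using Submodule.span_induction with
    | mem x hx =>
      obtain ⟨u, hu, rfl⟩ := hx
      intro c
      rw [map_mul, map_mul, frO_not w hu, frO_not w' hu, ← sub_mul, mul_comm _ (φ _)]
      exact Ideal.mul_mem_mul (hφ u).2 (S.lip w w' I hI h1 c)
    | zero => simp
    | add x y _ _ hx hy =>
      intro c
      convert add_mem (hx c) (hy c) using 1
      simp only [mul_add, map_add]; ring
    | smul a x _ hx => intro c; rw [smul_eq_mul, ← mul_assoc]; exact hx _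
  change S.Φ w' (o GO r) - S.Φ w (o GO r) ∈ m * I
  convert add_mem h2 (h3 1) using 1
  simp only [← e1, map_add, one_mul]; ring

/-- **solving for the variables `e`**: `ψ (f j) = t j`, the other variables are frozen -/
theorem solve_O (hm : G.Id m) (hn : IsNilpotent m) (hp : ∀ x ∈ m, x ^ p = 0)
    (hO : ∀ i, GO.Hg (d i) (z i)) (hd : ∀ q, d (e q) = q.2) (he : Injective e) (φ : O p K σ →ₐ[K] A)
    (hφ : ∀ u, G.Hg (d u) (φ (z u)) ∧ φ (z u) ∈ m) {f : ι → Tw GO}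
    (hf : ∀ j, In (mx * mx ⊔ fz K p e) (f j - XX GO e j)) {t : ι → Tw G} (ht : ∀ j, In m (t j)) :
    ∃ ψ : O p K σ →ₐ[K] A, (∀ u, G.Hg (d u) (ψ (z u)) ∧ ψ (z u) ∈ m) ∧
      (∀ u, u ∉ range e → ψ (z u) = φ (z u)) ∧ (∀ j, ψ (o GO (f j)) = o G (t j)) ∧
      ∀ J, G.Id J → (∀ j, φ (o GO (f j)) - o G (t j) ∈ J) → ∀ x, ψ x - φ x ∈ J := by
  set S := frO hm hp hO hd he φ hφ
  obtain ⟨w, hw⟩ := S.solve hn (fun j => frO_sm (hf j)) ht
  have hφ' : GO.Hom G φ := hom_of_z hO fun u => (hφ u).1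
  let w0 : ι → U hm := fun j => unU hm hn (Tw.map hφ' (XX GO e j))
    (map_mx φ (fun u => (hφ u).2) (XX_in (GO := GO) j))
  have e0 : S.Φ w0 = φ := hom_ext fun u => by
    by_cases h1 : u ∈ range e
    · obtain ⟨q, rfl⟩ := h1
      refine (upd_e hp he φ _ (fun q => hm _ _ (w0 q.1).2) q).trans ?_
      change G.pr q.2 (o G (1 + Tw.map hφ' (XX GO e q.1) - 1)) = _
      rw [add_sub_cancel_left, o_map, ← hφ', pr_XX hO hd]
    · exact frO_not w0 h1
  refine ⟨S.Φ w, frO_z w, fun u => frO_not w, fun j => congrArg (o G) (hw j), fun J hJ h x => ?_⟩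
  rw [← e0]
  refine S.lip w0 w J hJ (S.ctl hn (fun j => frO_sm (hf j)) hJ fun j => ?_) x
  rw [hw, ← neg_sub]
  refine In.neg ?_
  change S.Φ w0 (o GO (f j)) - o G (t j) ∈ J
  rw [e0]; exact h j

variable {X : Type} [TopologicalSpace X] [Fintype ι]

/-- add free directions `x j` to a connection -/
def shf (hO : ∀ i, GO.Hg (d i) (z i)) (e : ι × Gm p → σ) (x : ι → Co K 1 X) (g : Cn GO X)
    (hg : ∀ s, g s ∈ U (id_mx hO)) : Cn GO X := fun s =>
  un (id_mx hO) mx_nil ((g s).val - 1 + ∑ j, x j s • XX GO e j)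
    (In.add (hg s) ((inS GO mx).sum_mem fun j _ => in_smul _ (XX_in j)))

variable {x : ι → Co K 1 X} {g : Cn GO X} {hg : ∀ s, g s ∈ U (id_mx hO)}





end ring

variable [Field K] [Algebra K A] {GO : Gr (Gm p) K (O p K σ)} {G : Gr (Gm p) K A} {d : σ → Gm p}
  {m : Ideal A} {e : ι × Gm p → σ} [Fintype σ] {X : Type} [TopologicalSpace X]


end Crest.Agent.N255.Ku

end
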