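import Crest.Agent.N255.Ku.Lin
import Crest.Agent.N255.Ku.Vers
import Crest.Agent.N255.Dr.Lu

-- ▼ part N255/Ku/Msc
section

/-!
# Row 255 (helper21): multi-scale and zonewise Kuranishi families
-/

set_option autoImplicit false
open Set

noncomputable section

namespace Crest.Agent.N255.Ku

open Cs Cs.Tw Tp

variable {p : ℕ} [Fact p.Prime] {K O : Type} [CommRing O] [Field K] [Algebra K O]
  {G : Gr (Gm p) K O} {m I J : Ideal O} {X : Type} [TopologicalSpace X] {g g' g1 : Cn G X} {l : ℕ}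

/-- `RC` modulo `M` -/
def RCm (M : Ideal O) (N : Submodule K (Ch K l X)) (P : Sb X) (φ : Co (Tw G) (l + 1) X) : Prop :=
  ∀ c ∈ P.ch K (l + 1), ∃ c' ∈ P.ch K (l + 1), bd K c' ∈ N ∧ In M (Tp.ev K φ c - Tp.ev K φ c')

section

variable {M M' : Ideal O} {N : Submodule K (Ch K l X)} {Q Q' : Sb X} {φ ψ : Co (Tw G) (l + 1) X}


theorem RCm.mono (h : RCm M N Q φ) (hM : M ≤ M') : RCm M' N Q φ := fun c hc => by
  obtain ⟨c', h1, h2, h3⟩ := h c hc
  exact ⟨c', h1, h2, h3.mono hM⟩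

theorem RCm.congr (h : RCm M N Q φ) (e : CI Q M (ψ - φ)) : RCm M N Q ψ := fun c hc => by
  obtain ⟨c', h1, h2, h3⟩ := h c hc
  refine ⟨c', h1, h2, ?_⟩
  have := In.add h3 (In.sub (e.ev hc) (e.ev h1))
  simp only [Tp.ev_sub] at this
  convert this using 1
  abel

theorem RCm.step (h : RCm J N Q φ) {Z : Submodule K (Ch K (l + 1) X)}
    (hZ : ∀ z ∈ Z, In J (Tp.ev K φ z))
    (hH : ∀ c ∈ Q.ch K (l + 1), bd K c ∈ N → c ∈ Z ⊔ Q'.B K (l + 1)) :
    ∀ σ ∈ Q.S (l + 1), ∃ b ∈ Q'.B K (l + 1), In J (φ σ - Tp.ev K φ b) := fun σ hσ => by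
  obtain ⟨c, hc, h1, h2⟩ := h _ (Sb.sg_mem hσ)
  obtain ⟨z, hz, b, hb, rfl⟩ := Submodule.mem_sup.1 (hH c hc h1)
  refine ⟨b, hb, ?_⟩
  have := In.add h2 (hZ z hz)
  rw [Tp.ev_sg, map_add] at this
  convert this using 1
  abel

theorem RCm.map (h : RCm M N Q φ) {O' : Type} [CommRing O'] [Algebra K O'] {G' : Gr (Gm p) K O'}
    {f : O →ₐ[K] O'} (hf : G.Hom G' f) {M' : Ideal O'} (hM : ∀ x ∈ M, f x ∈ M')
    {φ' : Co (Tw G') (l + 1) X} (e : ∀ σ, φ' σ = Tw.map hf (φ σ)) : RCm M' N Q φ' := fun c hc => by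
  obtain ⟨c', h1, h2, h3⟩ := h c hc
  obtain rfl : φ' = fun σ => Tw.map hf (φ σ) := funext e
  refine ⟨c', h1, h2, ?_⟩
  have e1 : ∀ c, Tp.ev K (fun σ => Tw.map hf (φ σ)) c = Tw.map hf (Tp.ev K φ c) := ev_um hf φ
  rw [e1, e1, ← map_sub]
  exact hM _ h3

end

variable {N : Submodule K (Ch K 1 X)} {N0 : Submodule K (Ch K 0 X)} {Q Q' : Sb X}

/-- one retreat for the curvature -/
theorem RCm.cur {hm : G.Id m} (r : RCm J N Q (cur g)) (hI : G.Id I) (h : CU Q' hm g)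
    (f : CI Q' I (cur g)) {Z : Submodule K (Ch K 2 X)} (hZ : ∀ z ∈ Z, In J (Tp.ev K (cur g) z))
    (hH : ∀ c ∈ Q.ch K 2, bd K c ∈ N → c ∈ Z ⊔ Q'.B K 2) : CI Q (J ⊔ m * I) (cur g) :=
  cur_step hI h f (r.step hZ hH)

/-- one retreat for a difference -/
theorem RCm.dif {hm : G.Id m} (r : RCm J N0 Q (Cs.dif g' g)) (hI : G.Id I)
    (h : CU Q' hm g) (h' : CU Q' hm g') (f : CI Q' I (Cs.dif g' g))
    (hF : CI Q' J (Cs.cur g' - Cs.cur g)) {Z : Submodule K (Ch K 1 X)}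
    (hZ : ∀ z ∈ Z, In J (Tp.ev K (Cs.dif g' g) z))
    (hH : ∀ c ∈ Q.ch K 1, bd K c ∈ N0 → c ∈ Z ⊔ Q'.B K 1) : CI Q (J ⊔ m * I) (Cs.dif g' g) :=
  dif_step hI h h' f hF (r.step hZ hH)



/-- the state after scale `i` of a multi-scale construction on `Z 0 ≥ … ≥ Z n` -/
structure Ms {m : Ideal O} (hm : G.Id m) (N : Submodule K (Ch K 1 X)) (Z : ℕ → Sb X) (n : ℕ)
    (h : ℕ → Ch K 1 X →ₗ[K] Ch K 2 X) (i : ℕ) (g : Cn G X) : Prop where
  mem : ∀ σ, g σ ∈ U hm
  rc : ∀ j ≤ n, i ≤ j → RC N (Z j) (cur g)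
  fix : ∀ j ≤ n, i ≤ j → ∀ y, Tp.ev K (cur g) (h j y) = 0

/-- compatible contractions -/
def Cf (N : Submodule K (Ch K 1 X)) (Z : ℕ → Sb X) (n : ℕ) (h : ℕ → Ch K 1 X →ₗ[K] Ch K 2 X) : Prop :=
  ∀ i ≤ n, (∀ y ∈ N, h i y = 0) ∧ (∀ y, h i y ∈ (Z i).ch K 2) ∧
    ∀ j ≤ n, i ≤ j → (∀ c ∈ (Z j).ch K 2, h i (bd K c) ∈ (Z j).ch K 2 ∧ bd K (c - h i (bd K c)) ∈ N) ∧
      ∀ y, h i (bd K (h j y)) = h j y

variable {Z : ℕ → Sb X} {n i : ℕ} {h : ℕ → Ch K 1 X →ₗ[K] Ch K 2 X}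


theorem Cf.ms {hm : G.Id m} (c : Cf N Z n h) (hi : i ≤ n) (k : (sD X).Kr (h i) g g')
    (hg' : ∀ σ, g' σ ∈ U hm) : Ms hm N Z n h i g' := by
  have key : ∀ j ≤ n, i ≤ j → ∀ x ∈ (Z j).ch K 2,
      Tp.ev K (cur g') x = Tp.ev K (cur g') (x - h i (bd K x)) := fun j hj hij x hx => by
    have := k.curv (c := x) (by rw [sD_b2]; exact (c i hi).1 _ (((c i hi).2.2 j hj hij).1 x hx).2)
    rwa [sD_b2] at this
  refine ⟨hg', fun j hj hij x hx => ⟨_, sub_mem hx (((c i hi).2.2 j hj hij).1 x hx).1,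
    (((c i hi).2.2 j hj hij).1 x hx).2, key j hj hij x hx⟩, fun j hj hij y => ?_⟩
  rw [key j hj hij _ ((c j hj).2.1 y), ((c i hi).2.2 j hj hij).2, sub_self, map_zero]




end Crest.Agent.N255.Ku

end
namespace Crest.Agent.N255.Ku.RC
end Crest.Agent.N255.Ku.RC
namespace Crest.Agent.N255.Ku.Ds.Kr
end Crest.Agent.N255.Ku.Ds.Kr
namespace Crest.Agent.N255.Ku.Ms
end Crest.Agent.N255.Ku.Ms
end

-- ▼ part N255/Ku/Mon
section

/-!
# Row 255 (helper21): Kuranishi families and gauge fixing with one contraction per monomial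
-/

set_option autoImplicit false
open Set

noncomputable section

namespace Crest.Agent.N255.Ku

open Cs Cs.Tw Tp Tg _root_.N255.Dr _root_.N255.Dr.O

section abs

variable {p : ℕ} [Fact p.Prime] {K O : Type*} [CommRing K] [CommRing O] [Algebra K O]
  {G : Gr (Gm p) K O} {m : Ideal O} {S : Type*}


end abs

variable {p : ℕ} [Fact p.Prime] {K σ : Type} [Fintype σ]

section ring

variable [CommRing K] {G : Gr (Gm p) K (O p K σ)}

/-- coefficients of elements of the twisted ring -/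
def ct (G : Gr (Gm p) K (O p K σ)) (a : σ → ℕ) : Tw G →ₗ[K] K := cf a ∘ₗ (o G).toLinearMap

theorem ct_apply (a : σ → ℕ) (x : Tw G) : ct G a x = cf a (o G x) := rfl

theorem ct_ext {x y : Tw G} (h : ∀ a, ct G a x = ct G a y) : x = y :=
  (o G).injective (ext_cf fun a _ => h a)



theorem in_pow_iff {k : ℕ} {x : Tw G} : In (mx ^ k) x ↔ ∀ a, ∑ i, a i < k → ct G a x = 0 :=
  ⟨fun h _ => cf_eq_zero_of_mem_pow h, mem_pow_of_cf⟩


namespace Ds

variable {V E T Q : Type*} (D : Ds V E T Q) {g g' g'' : E → (Tw G)ˣ}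

/-- Kuranishi correction with the contraction `h a` for the monomial `a` -/
def Km (h : (σ → ℕ) → (E →₀ K) →ₗ[K] T →₀ K) (g g' : E → (Tw G)ˣ) : Prop :=
  ∀ e a, ct G a (Ku.dif g' g e) = -ct G a (Ku.ev K (D.Nl g g') (h a (Ku.sg K e)))


variable {D} {h : (σ → ℕ) → (E →₀ K) →ₗ[K] T →₀ K}

theorem Km.ev_dif (k : D.Km h g g') (a : σ → ℕ) (c : E →₀ K) :
    ct G a (Ku.ev K (Ku.dif g' g) c) = -ct G a (Ku.ev K (D.Nl g g') (h a c)) :=
  ev_ext (f := ct G a ∘ₗ Ku.ev K (Ku.dif g' g)) (g := -(ct G a ∘ₗ Ku.ev K (D.Nl g g') ∘ₗ h a))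
    (fun e => by rw [LinearMap.comp_apply, Ku.ev_sg, k e]; rfl) c

theorem Km.zero (k : D.Km h g g') {c : E →₀ K} (hc : ∀ a, h a c = 0) :
    Ku.ev K (Ku.dif g' g) c = 0 := ct_ext fun a => by simp only [k.ev_dif, hc, map_zero, neg_zero]

theorem Km.curv' (k : D.Km h g g') (a : σ → ℕ) (c : T →₀ K) : ct G a (Ku.ev K (D.F g') c) =
    ct G a (Ku.ev K (D.Nl g g') (c - h a (D.b2 K c))) := by
  rw [map_sub, map_sub, ev_Nl _ _ _ c, map_sub, k.ev_dif]; abel

theorem Km.curv (k : D.Km h g g') (a : σ → ℕ) {c : T →₀ K}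
    (hc : ∀ b, h b (D.b2 K (c - h a (D.b2 K c))) = 0) :
    ct G a (Ku.ev K (D.F g') c) = ct G a (Ku.ev K (D.F g') (c - h a (D.b2 K c))) := by
  rw [k.curv' a c, ev_Nl, k.zero hc, sub_zero]

/-- comparison with an arbitrary third connection `g0` -/
theorem Km.cmp (k : D.Km h g g') (g0 : E → (Tw G)ˣ) (a : σ → ℕ) (c : E →₀ K) :
    ct G a (Ku.ev K (Ku.dif g' g) c) = -ct G a (Ku.ev K (D.F g0) (h a c))
      - ct G a (Ku.ev K (Ku.dif g g0) (D.b2 K (h a c)))
      - ct G a (Ku.ev K (fun x => D.Nl g0 g' x - D.F g0 x) (h a c)) := by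
  have : ∀ x, D.Nl g g' x = D.F g0 x + D.d1 (Ku.dif g g0) x + (D.Nl g0 g' x - D.F g0 x) := fun x => by
    simp only [Nl, d1, Ku.dif]; abel
  rw [k.ev_dif, funext this, Ku.ev_add, Ku.ev_add, ev_b2, map_add, map_add]; abel

omit [Fintype σ] in
/-- the nonlinear term of `Km.cmp` -/
theorem nl_in (D : Ds V E T Q) {m I : Ideal (O p K σ)} (hm : G.Id m) (hI : G.Id I)
    (hg : ∀ e, g e ∈ U hm) (hg' : ∀ e, g' e ∈ U hm) {P : Set T}
    (hP : ∀ x ∈ P, In I (Ku.dif g' g (D.a x)) ∧ In I (Ku.dif g' g (D.b x))) {c : T →₀ K}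
    (hc : c ∈ ch K P) : In (m * I) (Ku.ev K (fun x => D.Nl g g' x - D.F g x) c) :=
  ev_in (fun x hx => D.Nl_in hm hI hg hg' (hP x hx).1 (hP x hx).2) hc

theorem Km.uniq (hm : G.Id mx) (k : D.Km h g g') (k' : D.Km h g g'') (hg' : ∀ e, g' e ∈ U hm)
    (hg'' : ∀ e, g'' e ∈ U hm) : g'' = g' := by
  have key : ∀ n e, In (mx ^ n) (Ku.dif g'' g' e) := fun n => by
    induction n with
    | zero => simp [In]
    | succ n ih =>
      refine fun e => in_pow_iff.2 fun a ha => ?_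
      have e1 : Ku.dif g'' g' e = Ku.dif g'' g e - Ku.dif g' g e := by simp [Ku.dif]
      rw [e1, map_sub, k e, k' e, neg_sub_neg, ← neg_sub, ← map_sub, ← Ku.ev_sub, neg_eq_zero]
      refine in_pow_iff.1 ?_ a ha
      rw [pow_succ']
      exact ev_in (fun x _ => D.Nl_sub hm (hm.pow n) hg' hg'' (ih _) (ih _)) (Ku.mem_ch_univ _)
  obtain ⟨n, hn⟩ := (mx_nil : IsNilpotent (mx : Ideal (O p K σ)))
  funext e
  have := key n e
  rw [hn] at this
  exact Units.ext (sub_eq_zero.1 (in_bot.1 this))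

variable (D)

/-- gauge fixing with the contraction `h0 a` for the monomial `a` -/
def Gn (h0 : (σ → ℕ) → (V →₀ K) →ₗ[K] E →₀ K) (g g' : E → (Tw G)ˣ) (γ : V → (Tw G)ˣ) : Prop :=
  ∀ v a, ct G a (Ku.dif γ 1 v) = ct G a (Ku.ev K (D.Gl γ g g') (h0 a (Ku.sg K v)))


variable {D} {h0 : (σ → ℕ) → (V →₀ K) →ₗ[K] E →₀ K} {γ : V → (Tw G)ˣ}

theorem Gn.ev_dif (k : D.Gn h0 g g' γ) (a : σ → ℕ) (c : V →₀ K) :
    ct G a (Ku.ev K (Ku.dif γ 1) c) = ct G a (Ku.ev K (D.Gl γ g g') (h0 a c)) :=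
  ev_ext (f := ct G a ∘ₗ Ku.ev K (Ku.dif γ 1)) (g := ct G a ∘ₗ Ku.ev K (D.Gl γ g g') ∘ₗ h0 a)
    (fun e => by rw [LinearMap.comp_apply, Ku.ev_sg, k e]; rfl) c

theorem Gn.zero (k : D.Gn h0 g g' γ) {c : V →₀ K} (hc : ∀ a, h0 a c = 0) :
    Ku.ev K (Ku.dif γ 1) c = 0 := ct_ext fun a => by simp only [k.ev_dif, hc, map_zero]

theorem Gn.per' (k : D.Gn h0 g g' γ) (a : σ → ℕ) (c : E →₀ K) :
    ct G a (Ku.ev K (Ku.dif (D.ga γ g') g) c) =
      ct G a (Ku.ev K (D.Gl γ g g') (c - h0 a (D.b1 K c))) := by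
  rw [map_sub, map_sub, ev_Gl _ _ _ _ c, map_add, k.ev_dif]; abel

theorem Gn.per (k : D.Gn h0 g g' γ) (a : σ → ℕ) {c : E →₀ K}
    (hc : ∀ b, h0 b (D.b1 K (c - h0 a (D.b1 K c))) = 0) :
    ct G a (Ku.ev K (Ku.dif (D.ga γ g') g) c) =
      ct G a (Ku.ev K (Ku.dif (D.ga γ g') g) (c - h0 a (D.b1 K c))) := by
  rw [k.per' a c, ev_Gl, k.zero hc, add_zero]

end Ds

end ring

variable [Field K] {G : Gr (Gm p) K (O p K σ)} {X : Type} [TopologicalSpace X] {l : ℕ}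

/-- `s` inverts the boundary of `Q` modulo `N` inside `Q` -/
def Sec (N : Submodule K (Ch K l X)) (s : Ch K l X →ₗ[K] Ch K (l + 1) X) (Q : Sb X) : Prop :=
  ∀ c ∈ Q.ch K (l + 1), s (bd K c) ∈ Q.ch K (l + 1) ∧ bd K (c - s (bd K c)) ∈ N

variable {N N' : Submodule K (Ch K l X)} {s : Ch K l X →ₗ[K] Ch K (l + 1) X} {Q Q' : Sb X}

theorem Sec.sup (h : Sec N s Q) (h' : Sec N s Q') : Sec N s (Q.sup Q') := fun c hc => by
  rw [Sb.ch_sup] at hc ⊢
  obtain ⟨a, ha, b, hb, rfl⟩ := Submodule.mem_sup.1 hc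
  refine ⟨?_, ?_⟩
  · rw [map_add, map_add]
    exact add_mem (Submodule.mem_sup_left (h a ha).1) (Submodule.mem_sup_right (h' b hb).1)
  · rw [map_add (bd K) a, map_add s, add_sub_add_comm, map_add]
    exact add_mem (h a ha).2 (h' b hb).2


/-- contractions relative to a larger `N'` with values in the image of a given section -/
theorem exists_rel (hN : N ≤ N') {P : ℕ → Sb X} (hP : ∀ i, (P i).Le (P (i + 1))) (n : ℕ)
    (hs : ∀ i ≤ n, Sec N s (P i)) :
    ∃ h, Ctr N' P n h ∧ ∀ y, ∃ c ∈ (P n).ch K (l + 1), h y = s (bd K c) := by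
  obtain ⟨r, h1, h2, h3, -, -, h6⟩ := exists_h LinearMap.id N' (P := fun i => (P i).B K l)
    (monotone_nat_of_le_succ fun i => Sb.B_mono (hP i)) (A := fun i => (P i).ch K l)
    (monotone_nat_of_le_succ fun i => Sb.ch_mono (hP i)) n
  have key : ∀ i ≤ n, ∀ y, r y ∈ (P i).B K l → s (r y) ∈ (P i).ch K (l + 1) := by
    rintro i hi y ⟨c, hc, e⟩
    rw [← e]; exact (hs i hi c hc).1
  refine ⟨s ∘ₗ r, ⟨fun y hy => by simp [h1 y hy], fun y => key n le_rfl y (h2 y), fun i hi c hc => ?_,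
    fun i hi j hj h y hy => key j hj y (h6 i hi j hj (by simpa using h) y hy)⟩, fun y => ?_⟩
  · obtain ⟨⟨c', hc', e⟩, k2⟩ := h3 i hi _ (Sb.bd_mem_B hc)
    simp only [LinearMap.id_apply, LinearMap.comp_apply] at e k2 ⊢
    rw [← e] at k2 ⊢
    refine ⟨(hs i hi c' hc').1, ?_⟩
    convert add_mem k2 (hN (hs i hi c' hc').2) using 1
    simp only [map_sub]; abel
  · obtain ⟨c, hc, e⟩ := h2 y
    exact ⟨c, hc, by rw [LinearMap.comp_apply, e]⟩

variable {g g' : Cn G X} {M : Submodule K (Ch K 1 X)} {h : (σ → ℕ) → Ch K 1 X →ₗ[K] Ch K 2 X}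

/-- **normal form**: the coefficient of `a` of the curvature vanishes on `h a (∂ c)` -/
theorem Ds.Km.cur (k : (sD X).Km h g g') (hM : ∀ a, ∀ y ∈ M, h a y = 0) (a : σ → ℕ) {c : Ch K 2 X}
    (hc : bd K (c - h a (bd K c)) ∈ M) : ct G a (Tp.ev K (cur g') (h a (bd K c))) = 0 := by
  have := k.curv a (c := c) fun b => by rw [sD_b2]; exact hM b _ hc
  rw [sD_b2, map_sub, map_sub] at this
  exact sub_eq_self.1 this.symm


end Crest.Agent.N255.Ku

end
end

-- ▼ part N255/Ku/Co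
section

/-!
# Row 255 (helper21): Kuranishi families with contractions on the cochain side
-/

set_option autoImplicit false
open Set Module

noncomputable section

namespace Crest.Agent.N255.Ku

open Cs Cs.Tw Tp Tg

section lin

variable {K S S' M M' : Type*} [Field K] [AddCommGroup M] [Module K M] [Module.Finite K M]
  [AddCommGroup M'] [Module K M'] [Module.Finite K M']

/-- a functional on scalar cochains applied to vector valued cochains -/
def tev (lam : Dual K (S → K)) : (S → M) →ₗ[K] M :=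
  ∑ i, (LinearMap.toSpanSingleton K M (finBasis K M i)) ∘ₗ lam ∘ₗ
    ((finBasis K M).coord i).compLeft S

theorem dual_tev (lam : Dual K (S → K)) (φ : S → M) (l : Dual K M) :
    l (tev lam φ) = lam fun x => l (φ x) := by
  have : (fun x => l (φ x)) = ∑ i, l (finBasis K M i) • fun x => (finBasis K M).coord i (φ x) := by
    funext x
    rw [← (finBasis K M).sum_repr (φ x), map_sum]
    simp [mul_comm]
  rw [this]
  simp only [tev, LinearMap.sum_apply, LinearMap.comp_apply, LinearMap.toSpanSingleton_apply, map_sum,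
    map_smul, smul_eq_mul, mul_comm]
  rfl

omit [Module.Finite K M] in
theorem dual_ext {x y : M} (h : ∀ l : Dual K M, l x = l y) : x = y :=
  sub_eq_zero.1 ((forall_dual_apply_eq_zero_iff K _).1 fun l => by rw [map_sub, h, sub_self])

omit [Module.Finite K M] in
theorem mem_of_dual {N : Submodule K M} {x : M} (h : ∀ l : Dual K M, (∀ y ∈ N, l y = 0) → l x = 0) :
    x ∈ N := (Subspace.forall_mem_dualAnnihilator_apply_eq_zero_iff N x).1 fun l hl =>
  h l ((Submodule.mem_dualAnnihilator l).1 hl)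

theorem tev_map (f : M →ₗ[K] M') (lam : Dual K (S → K)) (φ : S → M) :
    tev lam (fun x => f (φ x)) = f (tev lam φ) :=
  dual_ext fun l => (dual_tev _ _ _).trans (dual_tev lam φ (l ∘ₗ f)).symm




/-- an operator on scalar cochains applied to vector valued cochains -/
def tens (H : (S → K) →ₗ[K] S' → K) (φ : S → M) (e : S') : M := tev (LinearMap.proj e ∘ₗ H) φ

theorem dual_tens (H : (S → K) →ₗ[K] S' → K) (φ : S → M) (e : S') (l : Dual K M) :
    l (tens H φ e) = H (fun x => l (φ x)) e := dual_tev _ _ _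

theorem dual_tens' (H : (S → K) →ₗ[K] S' → K) (φ : S → M) (l : Dual K M) :
    (fun e => l (tens H φ e)) = H fun x => l (φ x) := funext fun e => dual_tens H φ e l

theorem tens_map (f : M →ₗ[K] M') (H : (S → K) →ₗ[K] S' → K) (φ : S → M) (e : S') :
    tens H (fun x => f (φ x)) e = f (tens H φ e) := tev_map f _ φ

theorem tens_sub (H : (S → K) →ₗ[K] S' → K) (φ ψ : S → M) (e : S') :
    tens H (fun x => φ x - ψ x) e = tens H φ e - tens H ψ e := map_sub (tev _) φ ψ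


/-- `φ` lies in `C ⊗ M` up to a cochain with values in `N` -/
def Ov (C : Submodule K (S → K)) (N : Submodule K M) (φ : S → M) : Prop :=
  ∀ l : Dual K M, (∀ y ∈ N, l y = 0) → (fun x => l (φ x)) ∈ C

/-- scalar cochains that vanish on `P` -/
def vn (K : Type*) [Field K] (P : Set S) : Submodule K (S → K) where
  carrier := {φ | ∀ x ∈ P, φ x = 0}
  add_mem' ha hb x h := by simp [ha x h, hb x h]
  zero_mem' _ _ := rfl
  smul_mem' r φ ha x h := by simp [ha x h]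

variable {C C' : Submodule K (S → K)} {N N' : Submodule K M} {φ ψ : S → M}

omit [Module.Finite K M] in
theorem ov_vn {P : Set S} : Ov (vn K P) N φ ↔ ∀ x ∈ P, φ x ∈ N :=
  ⟨fun h x hx => mem_of_dual fun l hl => h l hl x hx, fun h _ hl x hx => hl _ (h x hx)⟩

omit [Module.Finite K M] in
theorem ov_of_mem (h : ∀ x, φ x ∈ N) : Ov C N φ := fun _ hl => by
  rw [funext fun x => hl _ (h x)]; exact C.zero_mem

omit [Module.Finite K M] in
theorem Ov.mono (h : Ov C N φ) (h1 : C ≤ C') (h2 : N ≤ N') : Ov C' N' φ :=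
  fun l hl => h1 (h l fun y hy => hl y (h2 hy))

omit [Module.Finite K M] in
theorem Ov.add (h : Ov C N φ) (h' : Ov C N ψ) : Ov C N fun x => φ x + ψ x := fun l hl => by
  simp only [map_add]; exact add_mem (h l hl) (h' l hl)

omit [Module.Finite K M] in
theorem Ov.neg (h : Ov C N φ) : Ov C N fun x => -φ x := fun l hl => by
  simp only [map_neg]; exact neg_mem (h l hl)

omit [Module.Finite K M] in
theorem Ov.sub (h : Ov C N φ) (h' : Ov C N ψ) : Ov C N fun x => φ x - ψ x := fun l hl => by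
  simp only [map_sub]; exact sub_mem (h l hl) (h' l hl)

theorem Ov.tens (h : Ov C N φ) {H : (S → K) →ₗ[K] S' → K} {D : Submodule K (S' → K)}
    (hH : ∀ q ∈ C, H q ∈ D) : Ov D N (tens H φ) := fun l hl => by
  rw [dual_tens']; exact hH _ (h l hl)

theorem Ov.tev (h : Ov C N φ) {lam : Dual K (S → K)} (hl : ∀ q ∈ C, lam q = 0) : tev lam φ ∈ N :=
  mem_of_dual fun l h1 => by rw [dual_tev]; exact hl _ (h l h1)

theorem tev_mem (lam : Dual K (S → K)) (h : ∀ x, φ x ∈ N) : tev lam φ ∈ N :=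
  (ov_of_mem (C := ⊥) h).tev fun _ hq => by rw [(Submodule.mem_bot K).1 hq, map_zero]

theorem tens_mem (H : (S → K) →ₗ[K] S' → K) (h : ∀ x, φ x ∈ N) (e : S') : tens H φ e ∈ N :=
  tev_mem _ h

/-- directed unions: one index works for all functionals -/
theorem Ov.dir {ι : Type*} [Nonempty ι] {A : ι → Submodule K (S → K)} (hA : Directed (· ≤ ·) A)
    (h : Ov (⨆ i, A i) N φ) : ∃ i, Ov (A i) N φ := by
  let f : N.dualAnnihilator →ₗ[K] S → K :=
    { toFun l x := l.1 (φ x), map_add' _ _ := rfl, map_smul' _ _ := rfl }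
  have hc := (Submodule.fg_iff_compact _).1 (Module.Finite.fg_top.map f)
  obtain ⟨_, ⟨i, rfl⟩, hi⟩ := (CompleteLattice.isCompactElement_iff_le_of_directed_sSup_le _ _).1 hc
    (range A) (range_nonempty A) (directedOn_range.2 hA) (by
      rintro _ ⟨l, -, rfl⟩
      exact h l.1 ((Submodule.mem_dualAnnihilator _).1 l.2))
  exact ⟨i, fun l hl => hi ⟨⟨l, (Submodule.mem_dualAnnihilator l).2 hl⟩, trivial, rfl⟩⟩

end lin

variable {p : ℕ} [Fact p.Prime] {K O : Type*} [Field K] [CommRing O] [Algebra K O]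
  [Module.Finite K O] {G : Gr (Gm p) K O} {m I J : Ideal O} {O' : Type*} [CommRing O'] [Algebra K O']
  [Module.Finite K O'] {G' : Gr (Gm p) K O'} {φ : O →ₐ[K] O'}

instance fin_Tw : Module.Finite K (Tw G) := inferInstanceAs (Module.Finite K O)

theorem tens_in {S S' : Type*} (H : (S → K) →ₗ[K] S' → K) {ψ : S → Tw G} (h : ∀ x, In I (ψ x))
    (e : S') : In I (tens H ψ e) := tens_mem (N := inS G I) H h e

theorem tev_in {S : Type*} (lam : Dual K (S → K)) {ψ : S → Tw G} (h : ∀ x, In I (ψ x)) :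
    In I (tev lam ψ) := tev_mem (N := inS G I) lam h

namespace Ds

variable {V E T Q : Type*} (D : Ds V E T Q) {g g' g'' : E → (Tw G)ˣ}

/-- Kuranishi correction for a contraction on cochains -/
def Kc (H : (T → K) →ₗ[K] E → K) (g g' : E → (Tw G)ˣ) : Prop :=
  ∀ e, Ku.dif g' g e = -tens H (D.Nl g g') e


variable {D} {H : (T → K) →ₗ[K] E → K}

theorem Kc.dual (k : D.Kc H g g') (l : Dual K (Tw G)) :
    (fun e => l (Ku.dif g' g e)) = -H fun x => l (D.Nl g g' x) :=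
  funext fun e => by rw [k e, map_neg, dual_tens]; rfl

omit [Module.Finite K O] in
theorem dual_F (D : Ds V E T Q) (g g' : E → (Tw G)ˣ) (l : Dual K (Tw G)) :
    (fun x => l (D.F g' x)) = (fun x => l (D.Nl g g' x)) + D.d1 fun e => l (Ku.dif g' g e) :=
  funext fun x => by simp only [Nl, d1, map_sub, map_add, Pi.add_apply]; abel

/-- the curvature is `q - δ H q` -/
theorem Kc.curv (k : D.Kc H g g') (l : Dual K (Tw G)) : (fun x => l (D.F g' x)) =
    (fun x => l (D.Nl g g' x)) - D.d1 (H fun x => l (D.Nl g g' x)) := by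
  rw [dual_F D g g', k.dual]
  funext x
  simp only [d1, Pi.add_apply, Pi.sub_apply, Pi.neg_apply]; abel

/-- **normal form** -/
theorem Kc.H_cur (k : D.Kc H g g') (hH : ∀ y, H (D.d1 (H y)) = H y) (l : Dual K (Tw G)) :
    H (fun x => l (D.F g' x)) = 0 := by rw [k.curv, map_sub, hH, sub_self]

/-- the correction takes values in the range of `H` -/
theorem Kc.ov (k : D.Kc H g g') {C : Submodule K (T → K)} {C' : Submodule K (E → K)}
    (hH : ∀ q ∈ C, H q ∈ C') {N : Submodule K (Tw G)} (h : Ov C N (D.Nl g g')) :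
    Ov C' N (Ku.dif g' g) := funext k ▸ (h.tens hH).neg


theorem Kc.map (k : D.Kc H g g') (hφ : G.Hom G' φ) :
    D.Kc H (fun e => um hφ (g e)) fun e => um hφ (g' e) := fun e => by
  rw [dif_um, k e, map_neg]
  congr 1
  refine (tens_map (Tw.map hφ).toLinearMap H _ e).symm.trans ?_
  congr 1
  funext x
  simp only [Nl, F_um, d1, dif_um, map_sub, map_add, AlgHom.toLinearMap_apply]

theorem Kc.uniq (hm : G.Id m) (hn : IsNilpotent m) (k : D.Kc H g g') (k' : D.Kc H g g'')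
    (hg' : ∀ e, g' e ∈ U hm) (hg'' : ∀ e, g'' e ∈ U hm) : g'' = g' := by
  obtain ⟨N, hN⟩ := hn
  have := in_of_retreat hm hN G.id_bot (φ := Ku.dif g'' g') (P := fun _ => univ)
    fun i _ I hI h1 e _ => by
      have e1 : Ku.dif g'' g' e = Ku.dif g'' g e - Ku.dif g' g e := by simp [Ku.dif]
      rw [e1, k e, k' e, neg_sub_neg, ← neg_sub, ← tens_sub]
      exact (In.neg (tens_in H (fun x => D.Nl_sub hm hI hg' hg'' (h1 _ trivial) (h1 _ trivial))
        e)).mono le_sup_right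
  funext e
  exact Units.ext (sub_eq_zero.1 (in_bot.1 (this e trivial)))

/-- one retreat for the correction, compared with a third connection `g0` -/
theorem Kc.step (hm : G.Id m) (hI : G.Id I) (k : D.Kc H g g') {g0 : E → (Tw G)ˣ}
    (hg : ∀ e, g0 e ∈ U hm) (hg' : ∀ e, g' e ∈ U hm) {A : Set E} {P : Set T}
    (hH : ∀ q ∈ vn K P, H q ∈ vn K A)
    (hP : ∀ x ∈ P, In I (Ku.dif g' g0 (D.a x)) ∧ In I (Ku.dif g' g0 (D.b x)))
    (hF : ∀ e ∈ A, In J (tens H (fun x => D.F g0 x + D.d1 (Ku.dif g g0) x) e)) :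
    ∀ e ∈ A, In (J ⊔ m * I) (Ku.dif g' g e) := fun e he => by
  have e1 : D.Nl g g' = fun x => (D.F g0 x + D.d1 (Ku.dif g g0) x) - -(D.Nl g0 g' x - D.F g0 x) :=
    funext fun x => by simp only [Nl, d1, Ku.dif]; abel
  rw [k e, e1, tens_sub]
  refine In.neg (In.sub ((hF e he).mono le_sup_left) (In.mono ?_ le_sup_right))
  exact ov_vn.1 ((ov_vn.2 fun x hx => In.neg (D.Nl_in hm hI hg hg' (hP x hx).1 (hP x hx).2) :
    Ov (vn K P) (inS G (m * I)) _).tens hH) e he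



variable (D)

/-- gauge fixing for a contraction on cochains -/
def Gc (H0 : (E → K) →ₗ[K] V → K) (g g' : E → (Tw G)ˣ) (γ : V → (Tw G)ˣ) : Prop :=
  ∀ v, Ku.dif γ 1 v = tens H0 (D.Gl γ g g') v


variable {D} {H0 : (E → K) →ₗ[K] V → K} {γ : V → (Tw G)ˣ}

theorem Gc.dual (k : D.Gc H0 g g' γ) (l : Dual K (Tw G)) :
    (fun v => l (Ku.dif γ 1 v)) = H0 fun e => l (D.Gl γ g g' e) :=
  funext fun e => by rw [k e, dual_tens]

/-- the difference is `q - δ H0 q` -/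
theorem Gc.per (k : D.Gc H0 g g' γ) (l : Dual K (Tw G)) :
    (fun e => l (Ku.dif (D.ga γ g') g e)) =
      (fun e => l (D.Gl γ g g' e)) - D.d0 (H0 fun e => l (D.Gl γ g g' e)) := by
  rw [← k.dual]
  funext x
  simp only [Gl, d0, map_add, map_sub, Pi.sub_apply]; abel

theorem Gc.H_dif (k : D.Gc H0 g g' γ) (hH : ∀ y, H0 (D.d0 (H0 y)) = H0 y) (l : Dual K (Tw G)) :
    H0 (fun e => l (Ku.dif (D.ga γ g') g e)) = 0 := by rw [k.per, map_sub, hH, sub_self]

theorem Gc.ov (k : D.Gc H0 g g' γ) {C : Submodule K (E → K)} {C' : Submodule K (V → K)}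
    (hH : ∀ q ∈ C, H0 q ∈ C') {N : Submodule K (Tw G)} (h : Ov C N (D.Gl γ g g')) :
    Ov C' N (Ku.dif γ 1) := funext k ▸ h.tens hH

theorem Gc.map (k : D.Gc H0 g g' γ) (hφ : G.Hom G' φ) :
    D.Gc H0 (fun e => um hφ (g e)) (fun e => um hφ (g' e)) fun v => um hφ (γ v) := fun v => by
  have e1 : ∀ v, Ku.dif (fun v => um hφ (γ v)) 1 v = Tw.map hφ (Ku.dif γ 1 v) := fun v => by
    simp [Ku.dif]
  rw [e1, k v]
  refine (tens_map (Tw.map hφ).toLinearMap H0 _ v).symm.trans ?_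
  congr 1
  funext x
  simp only [Gl, ga_um, d0, e1, dif_um, map_sub, map_add, AlgHom.toLinearMap_apply]

theorem Gc.step (hm : G.Id m) (hI : G.Id I) (k : D.Gc H0 g g' γ) (hg' : ∀ e, g' e ∈ U hm)
    (hγ : ∀ v, γ v ∈ U hm) {B : Set V} {A : Set E} (hH : ∀ q ∈ vn K A, H0 q ∈ vn K B)
    (hA : ∀ e ∈ A, In I (Ku.dif γ 1 (D.s e)) ∧ In I (Ku.dif γ 1 (D.t e)) ∧ In J (Ku.dif g' g e)) :
    ∀ v ∈ B, In (J ⊔ m * I) (Ku.dif γ 1 v) :=
  ov_vn.1 (k.ov hH (N := inS G (J ⊔ m * I)) (ov_vn.2 fun e he => by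
    rw [← add_sub_cancel (Ku.dif g' g e) (D.Gl γ g g' e)]
    exact In.add ((hA e he).2.2.mono le_sup_left)
      ((D.Gl_in hm hI hg' hγ (hA e he).1 (hA e he).2.1).mono le_sup_right)))

end Ds


end Crest.Agent.N255.Ku

end
namespace Crest.Agent.N255.Ku.Fr
end Crest.Agent.N255.Ku.Fr
end

-- ▼ part N255/Ku/CoS

/-!
# Row 255 (helper21): cochain side Kuranishi theory, singular simplices and monomialwise form
-/

set_option autoImplicit false
open Set Module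

noncomputable section

namespace Crest.Agent.N255.Ku

open Cs Cs.Tw Tp Tg _root_.N255.Dr _root_.N255.Dr.O

section sing

variable {p : ℕ} [Fact p.Prime] {K O : Type} [Field K] [CommRing O] [Algebra K O]
  {G : Gr (Gm p) K O} {m I J : Ideal O} {X : Type} [TopologicalSpace X] {P P' : Sb X} {n : ℕ}
  {g g' : Cn G X} {hm : G.Id m}

/-- `l` kills the ideal `J` -/
def Kl (l : Dual K (Tw G)) (J : Ideal O) : Prop := ∀ x, In J x → l x = 0

theorem Kl.mono {l : Dual K (Tw G)} (h : Kl l J) (hI : I ≤ J) : Kl l I := fun x hx => h x (hI hx)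

/-- the scalar cochain `l ∘ φ` -/
abbrev lc (l : Dual K (Tw G)) (φ : Co (Tw G) n X) : Co K n X := fun σ => l (φ σ)

theorem cob_lc (l : Dual K (Tw G)) (φ : Co (Tw G) n X) : cob K (lc l φ) = lc l (cob K φ) :=
  funext fun σ => cob_map l φ σ

theorem ev_lc (l : Dual K (Tw G)) (φ : Co (Tw G) n X) (c : Ch K n X) :
    Tp.ev K (lc l φ) c = l (Tp.ev K φ c) := (map_ev l φ c).symm

theorem ci_iff {φ : Co (Tw G) n X} : CI P J φ ↔ ∀ l, Kl l J → lc l φ ∈ P.van K K n :=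
  (ov_vn (K := K) (N := inS G J)).symm


/-- Bianchi -/
theorem lc_cur_Z (hI : G.Id I) (h : CU P hm g) (f : CI P I (cur g)) {l : Dual K (Tw G)}
    (hl : Kl l (m * I)) : lc l (cur g) ∈ P.Z K K 2 := by
  rw [Sb.mem_Z, cob_lc]; exact ci_iff.1 (cob_cur_mem hI h f) l hl

/-- the coboundary of a difference of connections -/
theorem cob_dif_mem (hI : G.Id I) (h : CU P hm g) (h' : CU P hm g') (f : CI P I (Cs.dif g' g)) :
    CI P (m * I) (cur g' - cur g - cob K (Cs.dif g' g)) := fun x hx => by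
  have := (sD X).F_sub g' g x
  rw [sD_d1 K] at this
  change In _ ((sD X).F g' x - (sD X).F g x - cob K (Ku.dif g' g) x)
  rw [this]
  exact In.add (in_rm hm hI (h'.gs hx 1 2) (f.df hx 0 1))
    (in_lm hm hI (h.gs hx 0 1) (f.df hx 1 2))




/-- contraction data on cochains: primitives in `C`, equations modulo `N` -/
structure Cc0 (N : Submodule K (Co K (n + 1) X)) (C : Submodule K (Co K n X))
    (H : Co K (n + 1) X →ₗ[K] Co K n X) : Prop where
  zero : ∀ y ∈ N, H y = 0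
  mem : ∀ y, H y ∈ C
  inv : ∀ c ∈ C, cob K (c - H (cob K c)) ∈ N
  idem : ∀ y, H (cob K (H y)) = H y



variable [Module.Finite K O]

theorem Ds.Kc.cur {H : Co K 2 X →ₗ[K] Co K 1 X} (k : (sD X).Kc H g g')
    (hH : ∀ y, H (cob K (H y)) = H y) (l : Dual K (Tw G)) : H (lc l (cur g')) = 0 :=
  k.H_cur (fun y => by rw [sD_d1 K]; exact hH y) l

theorem Ds.Gc.dif {H : Co K 1 X →ₗ[K] Co K 0 X} {γ : Sx 0 X → (Tw G)ˣ} (k : (sD X).Gc H g g' γ)
    (hH : ∀ y, H (cob K (H y)) = H y) (l : Dual K (Tw G)) : H (lc l (Cs.dif (gag γ g') g)) = 0 :=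
  k.H_dif (fun y => by rw [sD_d0 K]; exact hH y) l



end sing

variable {p : ℕ} [Fact p.Prime] {K σ : Type} [Fintype σ] [CommRing K] {G : Gr (Gm p) K (O p K σ)}





namespace Ds

variable {V E T Q : Type*} (D : Ds V E T Q) {g g' g'' : E → (Tw G)ˣ}

/-- Kuranishi correction, cochain side, one contraction per monomial -/
def Kd (H : (σ → ℕ) → (T → K) →ₗ[K] E → K) (g g' : E → (Tw G)ˣ) : Prop :=
  ∀ a, (fun e => ct G a (Ku.dif g' g e)) = -H a fun x => ct G a (D.Nl g g' x)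


variable {D} {H : (σ → ℕ) → (T → K) →ₗ[K] E → K}

theorem Kd.curv (k : D.Kd H g g') (a : σ → ℕ) : (fun x => ct G a (D.F g' x)) =
    (fun x => ct G a (D.Nl g g' x)) - D.d1 (H a fun x => ct G a (D.Nl g g' x)) := by
  funext x
  have := fun e => congrFun (k a) e
  simp only [Pi.neg_apply] at this
  simp only [d1, Pi.sub_apply, ← neg_eq_iff_eq_neg.2 (this _)]
  simp only [Nl, d1, map_sub, map_add]; ring


/-- comparison with a third connection -/
theorem Kd.cmp (k : D.Kd H g g') (g0 : E → (Tw G)ˣ) (a : σ → ℕ) :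
    (fun e => ct G a (Ku.dif g' g e)) = -H a (fun x => ct G a (D.F g0 x))
      - H a (D.d1 fun e => ct G a (Ku.dif g g0 e))
      - H a fun x => ct G a (D.Nl g0 g' x - D.F g0 x) := by
  rw [k a, ← map_neg, ← map_neg, ← map_sub, ← map_sub]
  congr 1
  funext x
  simp only [Nl, d1, Ku.dif, map_sub, map_add, Pi.sub_apply, Pi.neg_apply]; ring

variable (D)

/-- gauge fixing, cochain side, one contraction per monomial -/
def Gd (H0 : (σ → ℕ) → (E → K) →ₗ[K] V → K) (g g' : E → (Tw G)ˣ) (γ : V → (Tw G)ˣ) : Prop :=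
  ∀ a, (fun v => ct G a (Ku.dif γ 1 v)) = H0 a fun e => ct G a (D.Gl γ g g' e)


variable {D}

theorem Gd.per {H0 : (σ → ℕ) → (E → K) →ₗ[K] V → K} {γ : V → (Tw G)ˣ} (k : D.Gd H0 g g' γ)
    (a : σ → ℕ) : (fun e => ct G a (Ku.dif (D.ga γ g') g e)) =
      (fun e => ct G a (D.Gl γ g g' e)) - D.d0 (H0 a fun e => ct G a (D.Gl γ g g' e)) := by
  rw [← k a]
  funext x
  simp only [Gl, d0, map_add, map_sub, Pi.sub_apply]; ring

end Ds

end Crest.Agent.N255.Ku

end
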