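import Mathlib

/-!
# Row 255 (helper21): sections and contractions adapted to finite flags, Nakayama with retreats
-/

set_option autoImplicit false

namespace Crest.Agent.N255.Ku

/-- Nakayama along a chain of `N` retreats -/
theorem nak_fin {A : Type*} [CommRing A] {m J : Ideal A} {N : ℕ} (hm : m ^ N = ⊥) {I : ℕ → Ideal A}
    (h : ∀ i < N, I i ≤ J ⊔ m * I (i + 1)) : I 0 ≤ J := by
  have key : ∀ k ≤ N, I 0 ≤ J ⊔ m ^ k * I k := fun k hk => by
    induction k with
    | zero => simp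
    | succ k ih =>
      refine (ih (by omega)).trans (sup_le le_sup_left ((Ideal.mul_mono_right (h k hk)).trans ?_))
      rw [Ideal.mul_sup, ← mul_assoc, ← pow_succ]
      exact sup_le_sup_right Ideal.mul_le_right _
  simpa [hm] using key N le_rfl

variable {k M M' : Type*} [Field k] [AddCommGroup M] [Module k M] [AddCommGroup M'] [Module k M']

/-- a section over the image of a subspace -/
theorem exists_sec0 (f : M →ₗ[k] M') (P : Submodule k M) :
    ∃ s : M' →ₗ[k] M, (∀ y, s y ∈ P) ∧ ∀ x ∈ P, f (s (f x)) = f x := by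
  obtain ⟨g, hg⟩ := (f ∘ₗ P.subtype).rangeRestrict.exists_rightInverse_of_surjective
    (LinearMap.range_rangeRestrict _)
  obtain ⟨s, hs⟩ := g.exists_extend
  refine ⟨P.subtype ∘ₗ s, fun y => (s y).2, fun x hx => ?_⟩
  have h1 := LinearMap.congr_fun hs ⟨f x, ⟨x, hx⟩, rfl⟩
  have h2 := congrArg Subtype.val (LinearMap.congr_fun hg ⟨f x, ⟨x, hx⟩, rfl⟩)
  simp only [LinearMap.comp_apply, Submodule.subtype_apply] at h1 ⊢
  rw [h1]
  exact h2

/-- a section adapted to a finite flag -/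
theorem exists_sec (f : M →ₗ[k] M') {P : ℕ → Submodule k M} (hP : Monotone P) (n : ℕ) :
    ∃ s : M' →ₗ[k] M, (∀ y, s y ∈ P n) ∧
      ∀ i ≤ n, ∀ x ∈ P i, s (f x) ∈ P i ∧ f (s (f x)) = f x := by
  induction n with
  | zero =>
    obtain ⟨s, h1, h2⟩ := exists_sec0 f (P 0)
    exact ⟨s, h1, fun i hi x hx => by
      obtain rfl : i = 0 := by omega
      exact ⟨h1 _, h2 x hx⟩⟩
  | succ n ih =>
    obtain ⟨s, h1, h2⟩ := ih
    obtain ⟨t, t1, t2⟩ := exists_sec0 f (P (n + 1))
    obtain ⟨C, hC⟩ := ((P n).map f).exists_isCompl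
    let r : M' →ₗ[k] M' := ((P n).map f).subtype ∘ₗ ((P n).map f).projectionOnto C hC
    have r1 : ∀ y, r y ∈ (P n).map f := fun y => (((P n).map f).projectionOnto C hC y).2
    have r2 : ∀ y ∈ (P n).map f, r y = y := fun y hy =>
      congrArg Subtype.val (Submodule.projectionOnto_apply_left hC ⟨y, hy⟩)
    have h3 : ∀ y, (s ∘ₗ r + t ∘ₗ (LinearMap.id - r) : M' →ₗ[k] M) y ∈ P (n + 1) := fun y =>
      add_mem (hP n.le_succ (h1 _)) (t1 _)
    refine ⟨s ∘ₗ r + t ∘ₗ (LinearMap.id - r), h3, fun i hi x hx => ?_⟩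
    rcases hi.eq_or_lt with rfl | hi
    · refine ⟨h3 _, ?_⟩
      obtain ⟨x0, hx0, e⟩ := r1 (f x)
      have e2 : f x - f x0 = f (x - x0) := (map_sub _ _ _).symm
      simp only [LinearMap.add_apply, LinearMap.comp_apply, LinearMap.sub_apply, LinearMap.id_apply,
        map_add, ← e, e2, (h2 n le_rfl x0 hx0).2, t2 _ (sub_mem hx (hP n.le_succ hx0))]
      rw [map_sub, add_sub_cancel]
    · have hi' : i ≤ n := by omega
      have e := r2 (f x) ⟨x, hP hi' hx, rfl⟩
      simpa only [LinearMap.add_apply, LinearMap.comp_apply, LinearMap.sub_apply, LinearMap.id_apply,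
        e, sub_self, map_zero, add_zero] using h2 i hi' x hx

/-- **contraction adapted to two flags**: `h` kills `N`, inverts `d` modulo `N` on every `P i`, and sends
`A i` to `P j` as soon as the elements of `A i` that die in `P n` die in `P j` -/
theorem exists_h (d : M →ₗ[k] M') (N : Submodule k M') {P : ℕ → Submodule k M} (hP : Monotone P)
    {A : ℕ → Submodule k M'} (hA : Monotone A) (n : ℕ) :
    ∃ h : M' →ₗ[k] M, (∀ y ∈ N, h y = 0) ∧ (∀ y, h y ∈ P n) ∧
      (∀ i ≤ n, ∀ c ∈ P i, h (d c) ∈ P i ∧ d (c - h (d c)) ∈ N) ∧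
      (∀ y, h (d (h y)) = h y) ∧ (∀ y, d (h y) ∈ N → h y = 0) ∧
      ∀ i ≤ n, ∀ j ≤ n, (A i ⊔ N) ⊓ ((P n).map d ⊔ N) ≤ (P j).map d ⊔ N → ∀ y ∈ A i, h y ∈ P j := by
  obtain ⟨s, s1, s2⟩ := exists_sec (N.mkQ ∘ₗ d) hP n
  let B := (P n).map (N.mkQ ∘ₗ d)
  let A' : ℕ → Submodule k (M' ⧸ N) := fun i => if i ≤ n then (A i).map N.mkQ else ⊤
  have hA' : Monotone A' := fun i j hij => by
    by_cases hj : j ≤ n
    · simp only [A', if_pos hj, if_pos (hij.trans hj)]
      exact Submodule.map_mono (hA hij)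
    · simp only [A', if_neg hj]; exact le_top
  obtain ⟨t, -, t2⟩ := exists_sec B.mkQ hA' (n + 1)
  let r : (M' ⧸ N) →ₗ[k] M' ⧸ N := LinearMap.id - t ∘ₗ B.mkQ
  have r1 : ∀ y, r y ∈ B := fun y => by
    have := (t2 (n + 1) le_rfl y (by simp [A'])).2
    rw [← Submodule.Quotient.mk_eq_zero, ← Submodule.mkQ_apply]
    simp only [r, LinearMap.sub_apply, LinearMap.id_apply, LinearMap.comp_apply, map_sub, this,
      sub_self]
  have r2 : ∀ y ∈ B, r y = y := fun y hy => by
    have : B.mkQ y = 0 := (Submodule.Quotient.mk_eq_zero _).2 hy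
    simp only [r, LinearMap.sub_apply, LinearMap.id_apply, LinearMap.comp_apply, this, map_zero,
      sub_zero]
  have key : ∀ y, N.mkQ (d (s (r y))) = r y := fun y => by
    obtain ⟨x, hx, e⟩ := r1 y
    rw [← e]; exact (s2 n le_rfl x hx).2
  refine ⟨s ∘ₗ r ∘ₗ N.mkQ, fun y hy => ?_, fun y => s1 _, fun i hi c hc => ?_, fun y => ?_,
    fun y hy => ?_, fun i hi j hj hd y hy => ?_⟩
  · have : N.mkQ y = 0 := (Submodule.Quotient.mk_eq_zero _).2 hy
    simp only [LinearMap.comp_apply, this, map_zero]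
  · have e := r2 (N.mkQ (d c)) ⟨c, hP hi hc, rfl⟩
    have := s2 i hi c hc
    simp only [LinearMap.comp_apply, e] at this ⊢
    refine ⟨this.1, ?_⟩
    rw [← Submodule.Quotient.mk_eq_zero, ← Submodule.mkQ_apply, map_sub, map_sub, this.2, sub_self]
  · simp only [LinearMap.comp_apply, key, r2 _ (r1 _)]
  · have h0 : N.mkQ (d (s (r (N.mkQ y)))) = 0 := (Submodule.Quotient.mk_eq_zero _).2 hy
    rw [key] at h0
    simp only [LinearMap.comp_apply, h0, map_zero]
  · have h1 : r (N.mkQ y) ∈ A' i := by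
      have hy' : N.mkQ y ∈ A' i := by simp only [A', if_pos hi]; exact ⟨y, hy, rfl⟩
      exact sub_mem hy' (t2 i (by omega) _ hy').1
    simp only [A', if_pos hi] at h1
    obtain ⟨a, ha, e⟩ := h1
    obtain ⟨x, hx, e'⟩ := r1 (N.mkQ y)
    have h2 : a - d x ∈ N := by
      rw [← Submodule.Quotient.mk_eq_zero, ← Submodule.mkQ_apply, map_sub, e, ← e']; simp
    have h3 : a ∈ (P n).map d ⊔ N := by
      rw [← add_sub_cancel (d x) a]
      exact add_mem (Submodule.mem_sup_left ⟨x, hx, rfl⟩) (Submodule.mem_sup_right h2)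
    obtain ⟨_, ⟨x', hx', rfl⟩, z, hz, e3⟩ := Submodule.mem_sup.1 (hd ⟨Submodule.mem_sup_left ha, h3⟩)
    have h4 : r (N.mkQ y) = (N.mkQ ∘ₗ d) x' := by
      have : N.mkQ z = 0 := (Submodule.Quotient.mk_eq_zero _).2 hz
      rw [← e, ← e3, map_add, this, add_zero]; rfl
    simp only [LinearMap.comp_apply, h4]
    exact (s2 j hj x' hx').1


end Crest.Agent.N255.Ku
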